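import Crest.Agent.N325.Dm.Defs
import Crest.Agent.N325.Lst.ListImpl
import Crest.Agent.N325.On.Defs
import Crest.Agent.N325.P2.Defs
import Crest.Agent.N325.P2.Util
import Crest.Agent.N325.Lb.Bar
import Crest.Agent.N325.Op.Gap
import Crest.Agent.N325.Ip.Pot
import Crest.Agent.N325.Ip.Bar
import Crest.Agent.N325.Mg.Defs
import Crest.Agent.N325.Lst.ListR

-- ▼ part N325/Dm/Impl
section

/-! # Row 325 (helper14): the searches of the edge event are implementable -/

set_option autoImplicit false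

namespace Crest.Agent.N325.Dm

variable {α : Type} [Rp α]

/-- the accessors are straight-line code -/
structure BgI (G : α → Bg) : Prop where
  mu : Pu true fun p : α × ℕ => (G p.1).mu p.2
  adj : Pu true fun p : α × ℕ => (G p.1).adj p.2
  ok : Pu false fun p : α × ℕ × ℕ => (G p.1).ok p.2.1 p.2.2
  hd : Pu true fun p : α × ℕ × ℕ => (G p.1).hd p.2.1 p.2.2

variable {G G' : α → Bg}

theorem BgI.comp {β : Type} [Rp β] (h : BgI G) {f : β → α} (hf : Pu true f) :
    BgI fun b => G (f b) :=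
  ⟨h.mu.comp (f := fun p : β × ℕ => (f p.1, p.2)) (by fun_prop),
    h.adj.comp (f := fun p : β × ℕ => (f p.1, p.2)) (by fun_prop),
    h.ok.comp (f := fun p : β × ℕ × ℕ => (f p.1, p.2)) (by fun_prop),
    h.hd.comp (f := fun p : β × ℕ × ℕ => (f p.1, p.2)) (by fun_prop)⟩

/-- the accessors as functions -/
theorem BgI.ex (h : BgI G) : ∃ (mu : α → ℕ → Option ℕ) (adj : α → ℕ → List ℕ)
    (ok : α → ℕ → ℕ → Bool) (hd : α → ℕ → ℕ → ℕ), (G = fun a => ⟨mu a, adj a, ok a, hd a⟩) ∧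
    (Pu true fun p : α × ℕ => mu p.1 p.2) ∧ (Pu true fun p : α × ℕ => adj p.1 p.2) ∧
    (Pu false fun p : α × ℕ × ℕ => ok p.1 p.2.1 p.2.2) ∧
    Pu true fun p : α × ℕ × ℕ => hd p.1 p.2.1 p.2.2 :=
  ⟨fun a => (G a).mu, fun a => (G a).adj, fun a => (G a).ok, fun a => (G a).hd, rfl, h.mu, h.adj,
    h.ok, h.hd⟩

theorem BgI.flip (h : BgI G) {u : α → ℕ} {ov : α → Arr ℕ} (hu : Pu true u) (ho : Pu true ov) :
    BgI fun a => flip (G a) (u a) (ov a) := by
  obtain ⟨mu, adj, ok, hd, rfl, h1, h2, h3, h4⟩ := h.ex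
  refine ⟨?_, h2, h3, h4⟩
  unfold Dm.flip; dsimp only; fun_prop

theorem BgI.mt (h : BgI G) : Pu true fun p : α × ℕ => (G p.1).mt p.2 := by
  obtain ⟨mu, adj, ok, hd, rfl, h1, h2, h3, h4⟩ := h.ex
  unfold Bg.mt; dsimp only; impl

theorem BgI.has (h : BgI G) : Pu false fun p : α × ℕ => (G p.1).has p.2 := by
  obtain ⟨mu, adj, ok, hd, rfl, h1, h2, h3, h4⟩ := h.ex
  unfold Bg.has; dsimp only; impl

theorem impl_dfs (h : BgI G) :
    Impl fun p : α × Arr Bool × ℕ × ℕ => dfs (G p.1) p.2.1 p.2.2.1 p.2.2.2 := by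
  obtain ⟨mu, adj, ok, hd, rfl, h1, h2, h3, h4⟩ := h.ex
  unfold dfs cond step Bg.cadj Bg.mt Bg.has; dsimp only; impl

@[fun_prop] theorem impl_ovl {st : α → List Fr} (h : Pu true st) : Impl fun a => ovl (st a) := by
  unfold ovl ovStep; impl

theorem impl_closeOut (h : BgI G) (h' : BgI G') :
    Impl fun p : α × ℕ × List ℕ => closeOut (G p.1) (G' p.1) p.2.1 p.2.2 := by
  obtain ⟨mu, adj, ok, hd, rfl, h1, h2, h3, h4⟩ := h.ex
  obtain ⟨mu', adj', ok', hd', rfl, k1, k2, k3, k4⟩ := h'.ex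
  unfold closeOut baseOf Bg.mt Bg.has; dsimp only; impl

theorem impl_test (h : BgI G) :
    Impl fun p : α × ℕ × ℕ × ℕ => test (G p.1) p.2.1 p.2.2.1 p.2.2.2 := by
  have hf : BgI fun p : α × ℕ × Arr ℕ => flip (G p.1) p.2.1 p.2.2 :=
    (h.comp (by fun_prop)).flip (by fun_prop) (by fun_prop)
  have h1 := impl_dfs h
  have h2 := impl_dfs hf
  have h3 := impl_closeOut (h.comp (f := fun p : α × ℕ × Arr ℕ => p.1) (by fun_prop)) hf
  have h4 := h.has
  obtain ⟨d1, e1⟩ : ∃ d : α → Arr Bool → ℕ → ℕ → R Ds, ∀ a, dfs (G a) = d a := ⟨_, fun _ => rfl⟩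
  obtain ⟨d2, e2⟩ : ∃ d : α × ℕ × Arr ℕ → Arr Bool → ℕ → ℕ → R Ds,
    ∀ a u ov, dfs (flip (G a) u ov) = d (a, u, ov) :=
    ⟨fun p => dfs (flip (G p.1) p.2.1 p.2.2), fun _ _ _ => rfl⟩
  obtain ⟨d3, e3⟩ : ∃ d : α × ℕ × Arr ℕ → ℕ → List ℕ → R (Option (List ℕ × List ℕ × ℕ)),
    ∀ a u ov, closeOut (G a) (flip (G a) u ov) = d (a, u, ov) :=
    ⟨fun p => closeOut (G p.1) (flip (G p.1) p.2.1 p.2.2), fun _ _ _ => rfl⟩
  obtain ⟨d4, e4⟩ : ∃ d : α → ℕ → Bool, ∀ a, (G a).has = d a := ⟨_, fun _ => rfl⟩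
  unfold test young pop
  simp only [e1, e2, e3, e4] at h1 h2 h3 h4 ⊢
  impl

theorem impl_dom (h : BgI G) :
    Impl fun p : α × ℕ × ℕ × ℕ => dom (G p.1) p.2.1 p.2.2.1 p.2.2.2 := by
  have h1 := impl_test h
  obtain ⟨d1, e1⟩ : ∃ d : α → ℕ → ℕ → ℕ → R (Option (List ℕ × List ℕ × ℕ)),
    ∀ a, test (G a) = d a := ⟨_, fun _ => rfl⟩
  unfold dom noRes
  simp only [e1] at h1 ⊢
  impl

@[fun_prop] theorem impl_chase {par : α → Arr (ℕ × ℕ)} {s x fu : α → ℕ} (h1 : Pu true par)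
    (h2 : Pu true s) (h3 : Pu true x) (h4 : Pu true fu) :
    Impl fun a => chase (par a) (s a) (x a) (fu a) := by
  unfold chase chStep; impl

theorem impl_bfs (h : BgI G) :
    Impl fun p : α × ℕ × ℕ × ℕ => bfs (G p.1) p.2.1 p.2.2.1 p.2.2.2 := by
  have h1 := impl_dfs h
  have h4 := h.has
  obtain ⟨d1, e1⟩ : ∃ d : α → Arr Bool → ℕ → ℕ → R Ds, ∀ a, dfs (G a) = d a := ⟨_, fun _ => rfl⟩
  obtain ⟨d4, e4⟩ : ∃ d : α → ℕ → Bool, ∀ a, (G a).has = d a := ⟨_, fun _ => rfl⟩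
  unfold bfs
  simp only [e1, e4] at h1 h4 ⊢
  impl

end Crest.Agent.N325.Dm
end

-- ▼ part N325/On/Impl
section

/-! # Row 325 (helper95): the open case is implementable -/

set_option autoImplicit false

namespace Crest.Agent.N325.On

open Crest.Agent.N325.Dm

variable {α : Type} [Rp α] {G G' : α → Bg}

theorem bgi_rs (h : BgI G) {mk : α → Arr Bool} {pt : α → ℕ → ℕ} (hm : Pu true mk)
    (hp : Pu true fun p : α × ℕ => pt p.1 p.2) : BgI fun a => rs (G a) (mk a) (pt a) := by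
  obtain ⟨mu, adj, ok, hd, rfl, h1, h2, h3, h4⟩ := h.ex
  refine ⟨h1, h2, ?_, h4⟩
  unfold rs; dsimp only; impl

@[fun_prop] theorem impl_ovp {r : α → ℕ} {l : α → List (ℕ × ℕ)} (h1 : Pu true r) (h2 : Pu true l) :
    Impl fun a => ovp (r a) (l a) := by
  unfold ovp ovS; impl

@[fun_prop] theorem impl_fin {s ν : α → ℕ} {x : α → Ds} (h1 : Pu true s) (h2 : Pu true ν)
    (h3 : Pu true x) : Impl fun a => fin (s a) (ν a) (x a) := by
  unfold fin; impl

theorem impl_rsr (h : BgI G) (h' : BgI G') {pt : α → ℕ → ℕ}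
    (hp : Pu true fun p : α × ℕ => pt p.1 p.2) :
    Impl fun p : α × List ℕ × Arr Bool × ℕ => rsr (G p.1) (G' p.1) (pt p.1) p.2.1 p.2.2.1 p.2.2.2 := by
  have hr : BgI fun p : α × Arr Bool => rs (G' p.1) p.2 (pt p.1) :=
    bgi_rs (h'.comp (by fun_prop)) (by fun_prop)
      (hp.comp (f := fun p : (α × Arr Bool) × ℕ => (p.1.1, p.2)) (by fun_prop))
  have h1 := impl_dfs hr
  have h2 := h.has
  have h3 := h.mt
  obtain ⟨d1, e1⟩ : ∃ d : α × Arr Bool → Arr Bool → ℕ → ℕ → R Ds,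
    ∀ a mk, dfs (rs (G' a) mk (pt a)) = d (a, mk) :=
    ⟨fun p => dfs (rs (G' p.1) p.2 (pt p.1)), fun _ _ => rfl⟩
  obtain ⟨d2, e2⟩ : ∃ d : α → ℕ → Bool, ∀ a, (G a).has = d a := ⟨_, fun _ => rfl⟩
  obtain ⟨d3, e3⟩ : ∃ d : α → ℕ → ℕ, ∀ a, (G a).mt = d a := ⟨_, fun _ => rfl⟩
  unfold rsr mk1
  simp only [e1, e2, e3] at h1 h2 h3 ⊢
  impl

theorem impl_pref {wt : α → ℕ → ℕ} (hw : Pu true fun p : α × ℕ => wt p.1 p.2) :
    Impl fun p : α × ℕ × List ℕ => pref (wt p.1) p.2.1 p.2.2 := by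
  unfold pref pf1; impl

theorem impl_opn {σ : Type} [Rp σ] (h : BgI G) {pt wt : α → ℕ → ℕ}
    {wk : α → List ℕ × List ℕ × σ → R (List (List ℕ) × σ)}
    (hp : Pu true fun p : α × ℕ => pt p.1 p.2) (hw : Pu true fun p : α × ℕ => wt p.1 p.2)
    (hk : Impl fun p : α × List ℕ × List ℕ × σ => wk p.1 p.2) :
    Impl fun p : α × ℕ × ℕ × ℕ × σ =>
      opn (G p.1) (pt p.1) (wt p.1) (wk p.1) p.2.1 p.2.2.1 p.2.2.2.1 p.2.2.2.2 := by
  have hf : BgI fun p : α × ℕ × Arr ℕ => flip (G p.1) p.2.1 p.2.2 :=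
    (h.comp (by fun_prop)).flip (by fun_prop) (by fun_prop)
  have h1 := impl_rsr h h hp
  have h2 := impl_rsr (h.comp (f := fun p : α × ℕ × Arr ℕ => p.1) (by fun_prop)) hf
    (pt := fun p => pt p.1)
    (hp.comp (f := fun p : (α × ℕ × Arr ℕ) × ℕ => (p.1.1, p.2)) (by fun_prop))
  have h3 := impl_dfs hf
  have h4 := impl_pref hw
  obtain ⟨d1, e1⟩ : ∃ d : α → List ℕ → Arr Bool → ℕ → R (ℕ × List (ℕ × ℕ)),
    ∀ a, rsr (G a) (G a) (pt a) = d a := ⟨_, fun _ => rfl⟩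
  obtain ⟨d2, e2⟩ : ∃ d : α × ℕ × Arr ℕ → List ℕ → Arr Bool → ℕ → R (ℕ × List (ℕ × ℕ)),
    ∀ a u ov, rsr (G a) (flip (G a) u ov) (pt a) = d (a, u, ov) :=
    ⟨fun p => rsr (G p.1) (flip (G p.1) p.2.1 p.2.2) (pt p.1), fun _ _ _ => rfl⟩
  obtain ⟨d3, e3⟩ : ∃ d : α × ℕ × Arr ℕ → Arr Bool → ℕ → ℕ → R Ds,
    ∀ a u ov, dfs (flip (G a) u ov) = d (a, u, ov) :=
    ⟨fun p => dfs (flip (G p.1) p.2.1 p.2.2), fun _ _ _ => rfl⟩
  obtain ⟨d4, e4⟩ : ∃ d : α → ℕ → List ℕ → R (List ℕ × ℕ), ∀ a, pref (wt a) = d a :=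
    ⟨_, fun _ => rfl⟩
  unfold opn
  simp only [e1, e2, e3, e4] at h1 h2 h3 h4 ⊢
  impl

end Crest.Agent.N325.On
end

-- ▼ part N325/Lb/Cmb
section

/-!
# Row 325 (helper53): LABEL — the combinatorial data
-/

set_option autoImplicit false
open Finset

namespace Crest.Agent.N325.Lb

open Crest.Agent.N325.Ip Crest.Agent.N325.Mt Crest.Agent.N325.Bf Crest.Agent.N325.P2

/-- `d'` arises from `d` by labelling `v` inner and its mate `u` outer -/
structure LbD (G : Gf) (d d' : Dt) (v u : ℕ) : Prop where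
  vn : v < G.n
  v0 : d.st.get v = 0
  mv : d.mt.get v = u
  st : ∀ w, d'.st.get w = if w = u then 2 else if w = v then 1 else d.st.get w
  cls : d'.cls = d.cls
  mem : ∀ w, d'.mem.get w = if w = u then [u] else d.mem.get w
  cw : ∀ w, d'.cw.get w = if w = u then 1 else d.cw.get w
  bs : ∀ w, d'.bs.get w = if w = u then u else d.bs.get w
  mt : d'.mt = d.mt
  pr : ∀ o < G.nd, d'.pr.get o = if G.hd o = u then false else d.pr.get o
  Q : ∀ o, o ∈ d'.Q ↔ (o < G.nd ∧ G.tl.get o = u) ∨ o ∈ d.Q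
  len : d'.Q.length ≤ d.Q.length + 3

variable {G : Gf} {d d' : Dt} {v u : ℕ}

theorem rv_lt (w : G.WF) {o : ℕ} (h : o < G.nd) : rv o < G.nd := by
  have := w.even; unfold rv; split_ifs <;> omega
theorem hd_rv (G : Gf) (o : ℕ) : G.hd (rv o) = G.tl.get o := by simp [Gf.hd]
theorem hd_lt (w : G.WF) {o : ℕ} (h : o < G.nd) : G.hd o < G.n := w.tl_lt _ (rv_lt w h)

namespace LbD

theorem facts (h : LbD G d d' v u) (c : Cmb G d) : u < G.n ∧ d.st.get u = 0 ∧ u ≠ v ∧
    d.mt.get u = v ∧ d.cls.get u = u ∧ d.cls.get v = v := by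
  have a := c.unl v h.vn h.v0
  have b := c.isM.mem (mem_range.2 h.vn)
  have e := c.isM.inv (mem_range.2 h.vn)
  rw [h.mv] at a b e
  exact ⟨mem_range.1 b, a.1, a.2, e, c.cls_ne u (mem_range.1 b) (by omega),
    c.cls_ne v h.vn (by have := h.v0; omega)⟩

theorem isC_iff (h : LbD G d d' v u) (c : Cmb G d) (w : ℕ) : isC G d' w ↔ w = u ∨ isC G d w := by
  obtain ⟨a1, a2, a3, a4, a5, a6⟩ := h.facts c
  have := h.v0
  unfold isC
  rw [h.st, h.cls]
  by_cases k : w = u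
  · simp [k, a1, a5]
  · by_cases k' : w = v
    · subst k'; simp [k, this]
    · simp [k, k']

theorem ne_of_isC (h : LbD G d d' v u) (c : Cmb G d) {w : ℕ} (k : isC G d w) : w ≠ u ∧ w ≠ v := by
  have := (h.facts c).2.1; have := h.v0; have := k.2.1
  constructor <;> rintro rfl <;> omega

theorem ne_of_st (h : LbD G d d' v u) (c : Cmb G d) {w : ℕ} (k : d.st.get w ≠ 0) :
    w ≠ u ∧ w ≠ v ∧ d'.st.get w = d.st.get w := by
  have a := (h.facts c).2.1; have b := h.v0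
  have x : w ≠ u := fun e => k (e ▸ a)
  have y : w ≠ v := fun e => k (e ▸ b)
  exact ⟨x, y, by rw [h.st, if_neg x, if_neg y]⟩

theorem keep (h : LbD G d d' v u) (c : Cmb G d) {w i : ℕ} (k : d.st.get w = i + 1) :
    d'.st.get w = i + 1 := (h.ne_of_st c (by omega)).2.2.trans k

theorem cmb (h : LbD G d d' v u) (c : Cmb G d) : Cmb G d' := by
  obtain ⟨a1, a2, a3, a4, a5, a6⟩ := h.facts c
  have v0 := h.v0; have mv := h.mv; have vn := h.vn
  have su : d'.st.get u = 2 := by simp [h.st]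
  have sv : d'.st.get v = 1 := by simp [h.st, a3.symm]
  have so : ∀ w, w ≠ u → w ≠ v → d'.st.get w = d.st.get w := fun w a b => by simp [h.st, a, b]
  have cu : ∀ w < G.n, d.st.get w = 2 → d.cls.get w ≠ u := fun w a b =>
    (h.ne_of_isC c (c.out w a b)).1
  refine ⟨h.mt ▸ c.isM, fun w hw => ?_, fun w hw k => ?_, fun w hw k => ?_, fun w hw k => ?_,
    fun w hw k => ?_, fun w k => ?_, fun w k x => ?_, fun w k => ?_, fun w k => ?_,
    fun w k x hx ne => ?_, fun w k => ?_, fun o ho k => ?_⟩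
  · have := c.st_le w hw
    rw [h.st]; split_ifs <;> omega
  · rw [h.cls]
    by_cases e : w = v
    · rw [e, a6]
    · have e' : w ≠ u := fun q => k (q ▸ su)
      exact c.cls_ne w hw (so w e' e ▸ k)
  · have e : w ≠ u := fun q => by rw [q] at k; omega
    have e' : w ≠ v := fun q => by rw [q] at k; omega
    rw [so w e e'] at k
    have i := c.isM.inv (mem_range.2 hw)
    rw [h.mt, so _ (fun q => e' (by rw [← i, q, a4])) fun q => e (by rw [← i, q, mv])]
    exact c.unl w hw k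
  · rw [h.mt, h.cls, h.bs]
    by_cases e : w = v
    · rw [e, mv, a5]; simp [su]
    · have e' : w ≠ u := fun q => by rw [q] at k; omega
      rw [so w e' e] at k
      obtain ⟨p, q⟩ := c.inn w hw k
      rw [(h.ne_of_st c (by omega)).2.2,
        if_neg (cu _ (mem_range.1 (c.isM.mem (mem_range.2 hw))) p)]
      exact ⟨p, q⟩
  · rw [h.isC_iff c, h.cls]
    by_cases e : w = u
    · left; rw [e, a5]
    · have e' : w ≠ v := fun q => by rw [q] at k; omega
      exact .inr (c.out w hw (so w e e' ▸ k))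
  · rw [h.mem]; split_ifs with e
    · exact List.nodup_singleton _
    · exact c.nodup w (((h.isC_iff c w).1 k).resolve_left e)
  · rw [h.mem, h.cls]; split_ifs with e
    · rw [List.mem_singleton, e]
      refine ⟨fun q => by rw [q]; exact ⟨a1, su, a5⟩, fun ⟨p, q, r⟩ => by_contra fun ne => ?_⟩
      have e' : x ≠ v := fun z => by rw [z] at q; omega
      exact cu x p (so x ne e' ▸ q) r
    · rw [c.mem w (((h.isC_iff c w).1 k).resolve_left e)]
      refine and_congr_right fun _ => ⟨fun ⟨p, q⟩ => ⟨h.keep c p, q⟩,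
        fun ⟨p, q⟩ => ⟨?_, q⟩⟩
      have e1 : x ≠ u := fun z => e (by rw [← q, z, a5])
      have e2 : x ≠ v := fun z => by rw [z] at p; omega
      exact so x e1 e2 ▸ p
  · rw [h.mem, h.cw]; split_ifs with e
    · rfl
    · exact c.cw w (((h.isC_iff c w).1 k).resolve_left e)
  · rw [h.mem, h.bs, h.mt]; split_ifs with e
    · exact ⟨List.mem_singleton_self _, .inr (by rw [a4, sv])⟩
    · obtain ⟨p, q⟩ := c.bs w (((h.isC_iff c w).1 k).resolve_left e)
      exact ⟨p, q.imp id fun q => h.keep c q⟩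
  · rw [h.bs] at ne
    rw [h.mem] at hx ⊢
    rw [h.mt]
    split_ifs at hx ne ⊢ with e
    · exact absurd (List.mem_singleton.1 hx) ne
    · exact c.inside w (((h.isC_iff c w).1 k).resolve_left e) x hx ne
  · rw [h.mem]; split_ifs with e
    · simpa using FC.single u
    · exact c.fc w (((h.isC_iff c w).1 k).resolve_left e)
  · rw [h.pr o ho] at k
    split_ifs at k with e
    obtain ⟨p, q, r⟩ := c.pr o ho k
    rw [h.mt, (h.ne_of_st c (by omega)).2.2, h.st, if_neg e]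
    refine ⟨p, ?_, r⟩
    split_ifs <;> omega

theorem qok (h : LbD G d d' v u) (w : G.WF) (c : Cmb G d) (q : QOk G d) : QOk G d' := by
  refine ⟨fun o k => ((h.Q o).1 k).elim (·.1) (q.lt o), fun o ho => ?_⟩
  by_cases e : G.tl.get o = u
  · exact .inl ((h.Q o).2 (.inl ⟨ho, e⟩))
  by_cases e' : G.hd o = u
  · exact .inr (.inr ⟨by simp [h.st, e'], (h.Q _).2 (.inl ⟨rv_lt w ho, e'⟩)⟩)
  rcases q.cmp o ho with k | k | k
  · exact .inl ((h.Q o).2 (.inr k))
  · refine .inr (.inl ?_)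
    unfold Done at k ⊢
    rw [h.pr o ho, if_neg e', h.mt, h.cls]
    rcases k with k | k | k | k
    · left; rw [h.st, if_neg e]; split_ifs <;> omega
    · exact .inr (.inl k)
    · exact .inr (.inr (.inl k))
    · exact .inr (.inr (.inr ⟨h.keep c k.1, k.2⟩))
  · exact .inr (.inr ⟨h.keep c k.1, (h.Q _).2 (.inr k.2)⟩)

theorem filt0 (h : LbD G d d' v u) (c : Cmb G d) : (range G.n).filter (d.st.get · = 0) =
    insert v (insert u ((range G.n).filter (d'.st.get · = 0))) := by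
  obtain ⟨a1, a2, a3, -⟩ := h.facts c
  have := h.v0; have := h.vn; have := a3.symm
  ext w
  simp only [mem_filter, mem_range, mem_insert, h.st]
  by_cases e : w = u
  · simp [*]
  · by_cases e' : w = v <;> simp [*]

theorem filt1 (h : LbD G d d' v u) (c : Cmb G d) : (range G.n).filter (d'.st.get · = 1) =
    insert v ((range G.n).filter (d.st.get · = 1)) := by
  obtain ⟨a1, a2, a3, -⟩ := h.facts c
  have := h.v0; have := h.vn; have := a3.symm
  ext w
  simp only [mem_filter, mem_range, mem_insert, h.st]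
  by_cases e : w = u
  · simp [*]
  · by_cases e' : w = v <;> simp [*]

theorem filt2 (h : LbD G d d' v u) (c : Cmb G d) : (range G.n).filter (d'.st.get · = 2) =
    insert u ((range G.n).filter (d.st.get · = 2)) := by
  obtain ⟨a1, a2, a3, -⟩ := h.facts c
  have := h.v0; have := h.vn; have := a3.symm
  ext w
  simp only [mem_filter, mem_range, mem_insert, h.st]
  by_cases e : w = u
  · simp [*]
  · by_cases e' : w = v <;> simp [*]

theorem filtC (h : LbD G d d' v u) (c : Cmb G d) : (range G.n).filter (isC G d') =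
    insert u ((range G.n).filter (isC G d)) := by
  have := (h.facts c).1
  ext w
  simp only [mem_filter, mem_range, mem_insert, h.isC_iff c]
  by_cases e : w = u <;> simp [*]

variable {T : Type} {X : Cx T}

/-- the change of the credits -/
theorem psi (h : LbD X.G d d' v u) (c : Cmb X.G d) : X.Ψ d' ≤ X.Ψ d - 9 * X.C.Z + X.C.K +
    2 * X.C.Z * (lM X.P X.Bd + Real.log 2) := by
  obtain ⟨a1, a2, a3, a4, a5, a6⟩ := h.facts c
  have v0 := h.v0
  have n0 : X.nS d 0 = X.nS d' 0 + 2 := by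
    rw [Cx.nS, Cx.nS, h.filt0 c, card_insert_of_notMem (by simp [h.st, a3.symm]),
      card_insert_of_notMem (by simp [h.st])]
  have n1 : X.nS d' 1 = X.nS d 1 + 1 := by
    rw [Cx.nS, Cx.nS, h.filt1 c, card_insert_of_notMem (by simp [v0])]
  have th : X.Th d' = X.C.K + X.Th d := by
    rw [Cx.Th, Cx.Th, h.filt2 c, sum_insert (by simp [a2]), h.cls, a5, h.cw, if_pos rfl]
    rw [Nat.log_one_right, Nat.sub_zero]
    refine congrArg _ (sum_congr rfl fun w hw => ?_)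
    obtain ⟨p, q⟩ := mem_filter.1 hw
    rw [h.cw, if_neg (h.ne_of_isC c (c.out w (mem_range.1 p) q)).1]
  have of : X.offs d' = X.offs d - 2 * X.C.Z * (lM X.P X.Bd + Real.log 2) := by
    rw [Cx.offs, Cx.offs, h.filtC c, sum_insert (by simp [isC, a2]), n0, h.cw, if_pos rfl,
      sum_congr rfl fun w hw => by rw [h.cw, if_neg (h.ne_of_isC c (mem_filter.1 hw).2).1]]
    push_cast
    rw [one_add_one_eq_two]; ring
  have l : (d'.Q.length : ℝ) ≤ d.Q.length + 3 := by exact_mod_cast h.len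
  have l' := mul_le_mul_of_nonneg_left l (Nat.cast_nonneg (α := ℝ) X.C.Z)
  rw [Cx.Ψ, Cx.Ψ, of, n0, n1, th, h.mt]
  push_cast
  linarith

end LbD

end Crest.Agent.N325.Lb
end

-- ▼ part N325/Lb/Net
section

/-!
# Row 325 (helper53): LABEL — the network
-/

set_option autoImplicit false
open Finset

namespace Crest.Agent.N325.Lb

open Crest.Agent.N325.Ip Crest.Agent.N325.Mt Crest.Agent.N325.Bf Crest.Agent.N325.P2
  Crest.Agent.N325.Op

variable {D : ℕ} {C : Cf} {G : Gf} {d d' : Dt} {v u : ℕ} {N : Net}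

/-- the only arc into a class is its entry arc -/
theorem into_class (a : Arcs D C G d N) (c : Cmb G d) {w e : ℕ} (hw : isC G d w) (he : e ∈ N.E)
    (hb : (N.arc e).b = w + 1) : e = 5 * d.mt.get (d.bs.get w) + 1 := by
  have k := (a.mem e).1 he
  rw [a.arc e he] at hb
  have s := hw.2.1
  obtain ⟨i, rfl | rfl | rfl | rfl | rfl⟩ := id_cases e
  · rw [has0] at k
    simp only [arcOf0, aP, capA, add_left_inj] at hb
    exact absurd (hb ▸ s) (c.pr i k.1 k.2).2.1
  · rw [has1] at k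
    simp only [arcOf1, aE, capA, add_left_inj] at hb
    rcases k.2 with q | q
    · rw [← hb, (c.inn i k.1 q).2, c.mt_mt k.1]
    · rw [← hb, q, (c.root k.1 q).2, q]
  · simp [arcOf2, snkA] at hb
  · rw [has3] at k
    simp only [arcOf3, aG, add_left_inj] at hb
    exact absurd (hb ▸ s) k.2
  · simp [arcOf4, aU] at hb

/-- the flow out of a class is at most `B` -/
theorem ouf_le (a : Arcs D C G d N) (c : Cmb G d)
    (p : ∀ e ∈ N.E, N.X e < (N.arc e).o3) {w : ℕ} (hw : isC G d w) : ouf N (w + 1) ≤ C.B := by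
  have z := a.cons (w + 1) (by omega)
  rw [dv_eq, sub_eq_zero] at z
  rw [← z]; unfold Op.inf
  rcases (N.E.filter fun e => (N.arc e).b = w + 1).eq_empty_or_nonempty with k | ⟨e, k⟩
  · rw [k, sum_empty]; positivity
  · have f := fun i (hi : i ∈ N.E.filter fun e => (N.arc e).b = w + 1) =>
      into_class a c hw (mem_filter.1 hi).1 (mem_filter.1 hi).2
    rw [eq_singleton_iff_unique_mem.2 ⟨k, fun i hi => (f i hi).trans (f e k).symm⟩, sum_singleton]
    have he := (mem_filter.1 k).1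
    have := p e he
    rw [a.arc e he, f e k, arcOf1] at this
    rw [f e k]
    exact this.le

theorem out_le (a : Arcs D C G d N) (c : Cmb G d)
    (p : ∀ e ∈ N.E, 0 < N.X e ∧ N.X e < (N.arc e).o3) {w e : ℕ} (hw : isC G d w) (he : e ∈ N.E)
    (ha : (N.arc e).a = w + 1) : N.X e ≤ C.B :=
  (single_le_sum (f := N.X) (fun i hi => (p i (mem_filter.1 hi).1).1.le)
    (mem_filter.2 ⟨he, ha⟩)).trans (ouf_le a c (fun e he => (p e he).2) hw)

/-- if all arcs with a non-zero value are rewritten only the new values count -/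
theorem tot_cover {M : Type} [AddCommGroup M] (f : Arc → ℤ → M) {l : List Ox}
    (nd : (l.map Prod.fst).Nodup)
    (h : ∀ e ∈ N.E, e ∉ l.map Prod.fst → f (N.arc e) (N.X e) = 0) :
    tot f (apps N l) = (l.map (nw f)).sum := by
  induction l generalizing N with
  | nil => exact sum_eq_zero fun e he => h e he (by simp)
  | cons o l ih =>
    rw [List.map_cons, List.nodup_cons] at nd
    have k := tot_apps f nd.2 (app N o)
    have k0 := tot_apps f nd.2 (N.del o.1)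
    have k1 := ih (N := N.del o.1) nd.2 fun e he ne => h e (mem_of_mem_erase he) (by
      simp only [List.map_cons, List.mem_cons, not_or]; exact ⟨ne_of_mem_erase he, ne⟩)
    have e : (l.map fun p => nw f p - old f (app N o) p.1) =
        l.map fun p => nw f p - old f (N.del o.1) p.1 := List.map_congr_left fun p hp => by
      have ne : p.1 ≠ o.1 := fun c => nd.1 (c ▸ List.mem_map_of_mem hp)
      obtain ⟨x, y, z⟩ := app_ne (N := N) ne
      simp only [old, x, y, z, del_E, del_arc, del_X, mem_erase, ne, ne_eq, not_false_eq_true,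
        true_and]
    rw [apps_cons, k, e, tot_app, List.map_cons, List.sum_cons, ← k1, k0, tot_del]
    abel

/-- the darts out of `u` whose reverse is a plain arc -/
def inL (G : Gf) (d : Dt) (u : ℕ) : List ℕ := (G.adj.get u).filter fun o => d.pr.get (rv o)
/-- the refunds -/
def mvL (G : Gf) (d : Dt) (u : ℕ) (x : ℕ → ℤ) : List (ℕ × ℤ) :=
  (inL G d u).map fun o => (5 * d.cls.get (G.hd o) + 2, x (5 * rv o))
/-- the operations -/
def opL (C : Cf) (G : Gf) (d : Dt) (v u : ℕ) (y : ℤ) : List Ox :=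
  (5 * v + 4, true, none) :: (5 * u + 3, true, none) :: (5 * u + 4, true, none) ::
    (5 * v + 1, false, some (capA (v + 1) (u + 1) C.B, y)) ::
    (5 * u + 2, false, some (snkA C u 2, y)) :: (inL G d u).map fun o => (5 * rv o, true, none)
/-- the new network -/
def lbN (C : Cf) (G : Gf) (d : Dt) (v u : ℕ) (N : Net) : Net :=
  apps (mvsN N (mvL G d u N.X)) (opL C G d v u (N.X (5 * v + 4)))

theorem mem_inL (w : G.WF) (hu : u < G.n) {o : ℕ} :
    o ∈ inL G d u ↔ o < G.nd ∧ G.tl.get o = u ∧ d.pr.get (rv o) = true := by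
  rw [inL, List.mem_filter, w.mem u hu, and_assoc]
theorem len_inL (w : G.WF) : (inL G d u).length ≤ 3 :=
  (List.length_filter_le _ _).trans (w.deg u)

theorem mem_ids {y : ℤ} {e : ℕ} : e ∈ (opL C G d v u y).map Prod.fst ↔ e = 5 * v + 4 ∨
    e = 5 * u + 3 ∨ e = 5 * u + 4 ∨ e = 5 * v + 1 ∨ e = 5 * u + 2 ∨
      ∃ o ∈ inL G d u, 5 * rv o = e := by
  simp [opL]

theorem nd_ids (w : G.WF) (hu : u < G.n) (ne : u ≠ v) (y : ℤ) :
    ((opL C G d v u y).map Prod.fst).Nodup := by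
  have : ((inL G d u).map fun o => 5 * rv o).Nodup :=
    ((w.nodup u hu).filter _).map fun a b e => by
      have : rv a = rv b := by omega
      rw [← rv_rv a, this, rv_rv]
  simp only [opL, List.map_cons, List.map_map, List.nodup_cons, List.mem_cons, List.mem_map,
    Function.comp_def, not_or, not_exists, not_and]
  refine ⟨?_, ?_, ?_, ?_, ?_, this⟩
  all_goals (repeat' apply And.intro) <;> intros <;> omega

/-- the plain arc into `u` and the sink of its tail -/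
theorem inL_arcs (a : Arcs D C G d N) (w : G.WF) (c : Cmb G d) (hu : u < G.n) {o : ℕ}
    (ho : o ∈ inL G d u) : isC G d (d.cls.get (G.hd o)) ∧ 5 * rv o ∈ N.E ∧
      N.arc (5 * rv o) = capA (d.cls.get (G.hd o) + 1) (u + 1) C.M ∧
      5 * d.cls.get (G.hd o) + 2 ∈ N.E ∧ N.arc (5 * d.cls.get (G.hd o) + 2) =
        snkA C (d.cls.get (G.hd o)) (d.cw.get (d.cls.get (G.hd o)) + 1) := by
  obtain ⟨p, q, r⟩ := (mem_inL w hu).1 ho
  have i := c.out _ (w.hd_lt p) (c.pr _ (w.rv_lt p) r).1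
  have m1 := (a.mem _).2 (has0.2 ⟨w.rv_lt p, r⟩)
  have m2 := (a.mem _).2 (has2.2 i)
  refine ⟨i, m1, ?_, m2, by rw [a.arc _ m2, arcOf2]⟩
  rw [a.arc _ m1, arcOf0, aP, Gf.hd_rv, q]; rfl

namespace LbD

theorem off (h : LbD G d d' v u) (w : G.WF) (c : Cmb G d) {y : ℤ} {e : ℕ}
    (k : e ∉ (opL C G d v u y).map Prod.fst) : (has G d' e ↔ has G d e) ∧
      (has G d e → arcOf D C G d' e = arcOf D C G d e) := by
  obtain ⟨a1, a2, a3, a4, a5, a6⟩ := h.facts c
  have v0 := h.v0; have mv := h.mv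
  simp only [mem_ids, not_or, not_exists, not_and] at k
  obtain ⟨k1, k2, k3, k4, k5, k6⟩ := k
  obtain ⟨i, rfl | rfl | rfl | rfl | rfl⟩ := id_cases e
  · refine ⟨?_, fun _ => by rw [arcOf0, arcOf0, aP, aP, h.cls]⟩
    rw [has0, has0]
    refine and_congr_right fun hi => ?_
    rw [h.pr i hi]
    split_ifs with q
    · refine ⟨fun z => (nomatch z), fun z => absurd (by rw [rv_rv]) (k6 (rv i) ?_)⟩
      exact (mem_inL w a1).2 ⟨w.rv_lt hi, q, by rwa [rv_rv]⟩
    · rfl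
  · refine ⟨?_, fun _ => by rw [arcOf1, arcOf1, aE, aE, h.cls, h.mt]⟩
    rw [has1, has1, h.mt, h.st, if_neg (by omega : ¬i = v)]
    split_ifs with q
    · simp [q, a2]
    · rfl
  · have q : i ≠ u := by omega
    exact ⟨by simp [has2, h.isC_iff c, q], fun _ => by rw [arcOf2, arcOf2, h.cw, if_neg q]⟩
  · refine ⟨?_, fun _ => by rw [arcOf3, arcOf3]⟩
    rw [has3, has3, h.st, if_neg (by omega : ¬i = u)]
    split_ifs with q
    · simp [q, v0]
    · rfl
  · refine ⟨?_, fun _ => by rw [arcOf4, arcOf4]⟩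
    rw [has4, has4, h.st, if_neg (by omega : ¬i = u), if_neg (by omega : ¬i = v)]

theorem on (h : LbD G d d' v u) (w : G.WF) (c : Cmb G d) {y : ℤ} {o : Ox}
    (k : o ∈ opL C G d v u y) : (has G d o.1 ↔ o.2.1 = true) ∧ (has G d' o.1 ↔ o.2.2 ≠ none) ∧
      ∀ z, o.2.2 = some z → z.1 = arcOf D C G d' o.1 := by
  obtain ⟨a1, a2, a3, a4, a5, a6⟩ := h.facts c
  have v0 := h.v0; have mv := h.mv; have vn := h.vn; have a3' := a3.symm
  simp only [opL, List.mem_cons, List.mem_map] at k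
  rcases k with rfl | rfl | rfl | rfl | rfl | ⟨i, hi, rfl⟩
  · simp [has4, h.st, *]
  · simp [has3, h.st, *]
  · simp [has4, h.st, *]
  · simp [has1, h.st, arcOf1, aE, h.mt, h.cls, *]
  · simp only [has2, h.isC_iff c]
    simp [arcOf2, h.cw, isC, *]
  · obtain ⟨p, q, r⟩ := (mem_inL w a1).1 hi
    simp [has0, h.pr _ (w.rv_lt p), w.rv_lt p, q, r]

theorem mv_mem (h : LbD G d d' v u) (w : G.WF) (c : Cmb G d) (a : Arcs D C G d N) (x : ℕ → ℤ) :
    ∀ p ∈ mvL G d u x, p.1 ∈ N.E := fun p hp => by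
  obtain ⟨o, ho, rfl⟩ := List.mem_map.1 hp
  exact (inL_arcs a w c (h.facts c).1 ho).2.2.2.1

theorem mv_X (x : ℕ → ℤ) {e : ℕ} (k : e % 5 ≠ 2) : (mvsN N (mvL G d u x)).X e = N.X e := by
  rw [mvsN_X, List.sum_eq_zero, add_zero]
  intro z hz
  obtain ⟨p, hp, rfl⟩ := List.mem_map.1 hz
  obtain ⟨o, -, rfl⟩ := List.mem_map.1 hp
  exact if_neg (by simp only; omega)

theorem cons (h : LbD G d d' v u) (w : G.WF) (c : Cmb G d) (a : Arcs D C G d N) :
    Cons (lbN C G d v u N) := by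
  obtain ⟨a1, a2, a3, a4, a5, a6⟩ := h.facts c
  have v0 := h.v0; have mv := h.mv; have vn := h.vn
  have nd := nd_ids (C := C) (d := d) w a1 a3 (N.X (5 * v + 4))
  have hE := mvsN_E (h.mv_mem w c a N.X)
  intro z hz
  by_cases ez : z = u + 1
  · rw [lbN, dv, tot_cover _ nd fun e he k => ?_]
    · simp [opL, ct, capA, snkA, ez, a3.symm, Function.comp_def]
    · rw [hE] at he
      have q := (a.mem _).1 he
      rw [mvsN_arc, a.arc _ he, ez]
      simp only [mem_ids, not_or, not_exists, not_and] at k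
      obtain ⟨k1, k2, k3, k4, k5, k6⟩ := k
      have cu : ∀ i < G.n, d.st.get i = 2 → d.cls.get i ≠ u := fun i p r =>
        (h.ne_of_isC c (c.out i p r)).1
      obtain ⟨i, rfl | rfl | rfl | rfl | rfl⟩ := id_cases e
      · rw [has0] at q
        have : G.hd i ≠ u := fun r => k6 (rv i) ((mem_inL w a1).2 ⟨w.rv_lt q.1, r, by
          rw [rv_rv]; exact q.2⟩) (by rw [rv_rv])
        simp [arcOf0, aP, capA, ct, this, cu _ (w.tl_lt i q.1) (c.pr i q.1 q.2).1]
      · rw [has1] at q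
        have x1 : i ≠ u := fun r => by rw [r, a2, a4] at q; omega
        have x2 : d.st.get (d.mt.get i) = 2 := q.2.elim (fun r => (c.inn i q.1 r).1) fun r => by
          rw [r]; exact (c.root q.1 r).1
        simp only [arcOf1, aE, capA, ct]
        have x3 : ¬(if d.mt.get i = i then 0 else i + 1) = u + 1 := by split <;> omega
        rw [if_neg x3, if_neg (by have := cu _ (c.mt_lt q.1) x2; omega), sub_zero]
      · have : i ≠ u := by omega
        simp [arcOf2, snkA, ct, this]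
      · have : i ≠ u := by omega
        simp [arcOf3, aG, ct, this]
      · have : i ≠ u := by omega
        simp [arcOf4, aU, ct, this]
  · have m4 := (a.mem _).2 (has4.2 ⟨vn, v0⟩)
    have m3 := (a.mem _).2 (has3.2 ⟨a1, by omega⟩)
    have m4' := (a.mem _).2 (has4.2 ⟨a1, a2⟩)
    have m1 : 5 * v + 1 ∉ N.E := by rw [a.mem, has1, mv, v0]; simp [a3]
    have m2 : 5 * u + 2 ∉ N.E := by rw [a.mem, has2]; simp [isC, a2]
    have e' : ¬u + 1 = z := fun q => ez q.symm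
    have hz' : ¬0 = z := fun q => hz q.symm
    rw [lbN, dv_apps nd, dv_mvsN (h.mv_mem w c a N.X), a.cons z hz, zero_add]
    simp only [opL, List.map_cons, List.sum_cons, nw_none, nw_some, old, hE, m4, m3, m4', m1, m2,
      if_true, if_false, mvsN_arc, a.arc _ m4, a.arc _ m3, a.arc _ m4', arcOf4, arcOf3,
      mv_X N.X (show (5 * v + 4) % 5 ≠ 2 by omega), List.map_map]
    have s : ((mvL G d u N.X).map fun p : ℕ × ℤ => ct z (N.arc p.1) p.2).sum + ((inL G d u).map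
        ((fun o : Ox => nw (ct z) o - if o.1 ∈ N.E then ct z (N.arc o.1)
          ((mvsN N (mvL G d u N.X)).X o.1) else 0) ∘ fun o => (5 * rv o, true, none))).sum = 0 := by
      rw [show ((mvL G d u N.X).map fun p : ℕ × ℤ => ct z (N.arc p.1) p.2) = _ from List.map_map,
        ← List.sum_map_add]
      refine List.sum_eq_zero fun q hq => ?_
      obtain ⟨o, ho, rfl⟩ := List.mem_map.1 hq
      obtain ⟨-, b1, b2, -, b3⟩ := inL_arcs a w c a1 ho
      simp only [Function.comp, nw_none, b1, if_true, b2, b3,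
        mv_X N.X (show (5 * rv o) % 5 ≠ 2 by omega), ct, snkA, capA, e', hz', if_false]
      ring
    generalize List.sum (α := ℤ) (List.map _ (mvL G d u N.X)) = p at s ⊢
    generalize List.sum (α := ℤ) (List.map _ (inL G d u)) = q at s ⊢
    simp only [ct, aU, aG, capA, snkA, e', hz', if_false]
    split_ifs <;> omega

theorem arcs (h : LbD G d d' v u) (w : G.WF) (c : Cmb G d) (a : Arcs D C G d N) :
    Arcs D C G d' (lbN C G d v u N) := by
  have nd := nd_ids (C := C) (d := d) w (h.facts c).1 (h.facts c).2.2.1 (N.X (5 * v + 4))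
  have hE := mvsN_E (h.mv_mem w c a N.X)
  refine .of (fun e => ?_) (fun e he => ?_) (h.cons w c a)
  · by_cases k : e ∈ (opL C G d v u (N.X (5 * v + 4))).map Prod.fst
    · obtain ⟨o, ho, rfl⟩ := List.mem_map.1 k
      rw [lbN, (apps_mem nd ho).1, (h.on (D := D) w c ho).2.1]
    · rw [lbN, (apps_ne k).1, hE, a.mem, (h.off (D := D) w c k).1]
  · by_cases k : e ∈ (opL C G d v u (N.X (5 * v + 4))).map Prod.fst
    · obtain ⟨o, ho, rfl⟩ := List.mem_map.1 k
      obtain ⟨z, hz⟩ := Option.ne_none_iff_exists'.1 ((apps_mem nd ho).1.1 he)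
      rw [lbN, ((apps_mem nd ho).2 z hz).1, (h.on w c ho).2.2 z hz]
    · have := (apps_ne k).1.1 he
      rw [hE] at this
      rw [lbN, (apps_ne k).2.1, mvsN_arc, a.arc e this, (h.off w c k).2 ((a.mem e).1 this)]

end LbD

end Crest.Agent.N325.Lb
end

-- ▼ part N325/Lb/Ev
section

/-!
# Row 325 (helper53): the event LABEL
-/

set_option autoImplicit false
open Finset

namespace Crest.Agent.N325.P2

open Crest.Agent.N325.Tw Crest.Agent.N325.Ip Crest.Agent.N325.Mt Crest.Agent.N325.Bf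
  Crest.Agent.N325.Op Crest.Agent.N325.Lb

/-- switch the reverse dart off and push the dart -/
def lb1 (o : ℕ) (p : Arr Bool × List ℕ) : Arr Bool × List ℕ := (p.1.set (rv o) false, o :: p.2)

/-- the refund of the reverse of the dart `o` -/
def lbMv (G : Gf) (d : Dt) (x : Arr ℤ) (o : ℕ) : R (ℕ × ℤ) := do
  let c ← nat (5 * d.cls.get (G.hd o) + 2)
  pure (c, x.get (5 * rv o))

/-- **LABEL**: `v` becomes inner, its mate a new class -/
def labEv {T : Type} (E : Env T) (s : S T) (v : ℕ) : R (S T) := do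
  let u := s.2.mt.get v
  let l ← filterP (fun o => s.2.pr.get (rv o)) (E.G.adj.get u)
  let ids ← mapL (fun o => nat (5 * rv o)) l
  let e4 ← nat (5 * v + 4)
  let r ← gets E.run E.P (e4 :: ids) (s.1, Arr.cst 0)
  let m ← mapL (lbMv E.G s.2 r.2) l
  let s1 ← mvs E.run E.P m r.1
  let dl ← mapP (fun e => ((e, true, none) : Ox)) ids
  let e3 ← nat (5 * u + 3)
  let e5 ← nat (5 * u + 4)
  let e1 ← nat (5 * v + 1)
  let e2 ← nat (5 * u + 2)
  let A1 ← arcN (capA (v + 1) (u + 1) E.C.B)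
  let A2 ← arcN (snkA E.C u 2)
  let s2 ← ops E.run E.P ((e4, true, none) :: (e3, true, none) :: (e5, true, none) ::
    (e1, false, some (A1, r.2.get e4)) :: (e2, false, some (A2, r.2.get e4)) :: dl) s1
  let p ← foldP lb1 (E.G.adj.get u) (s.2.pr, s.2.Q)
  pure (s2, ⟨(s.2.st.set v 1).set u 2, s.2.cls, s.2.mem.set u [u], s.2.cw.set u 1,
    s.2.bs.set u u, s.2.mt, p.1, p.2⟩)

theorem foldl_lb1 (l : List ℕ) (p : Arr Bool × List ℕ) :
    (∀ o, (l.foldl (fun s a => lb1 a s) p).1.get o = if rv o ∈ l then false else p.1.get o) ∧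
      (l.foldl (fun s a => lb1 a s) p).2 = l.reverse ++ p.2 := by
  induction l generalizing p with
  | nil => simp
  | cons a l ih =>
    rw [List.foldl_cons]
    refine ⟨fun o => ?_, by rw [(ih _).2]; simp [lb1]⟩
    rw [(ih _).1]
    by_cases k : rv o ∈ l
    · simp [k]
    · by_cases e : o = rv a
      · simp [e, lb1]
      · have : rv o ≠ a := fun q => e (by rw [← q, rv_rv])
        simp [k, this, lb1, Arr.get_set_ne _ e]

theorem lbD_of {G : Gf} {d : Dt} {v : ℕ} (w : G.WF) (c : Cmb G d) (hv : v < G.n)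
    (v0 : d.st.get v = 0) : LbD G d ⟨(d.st.set v 1).set (d.mt.get v) 2, d.cls,
      d.mem.set (d.mt.get v) [d.mt.get v], d.cw.set (d.mt.get v) 1,
      d.bs.set (d.mt.get v) (d.mt.get v), d.mt,
      ((G.adj.get (d.mt.get v)).foldl (fun s a => lb1 a s) (d.pr, d.Q)).1,
      ((G.adj.get (d.mt.get v)).foldl (fun s a => lb1 a s) (d.pr, d.Q)).2⟩ v (d.mt.get v) := by
  have hu := c.mt_lt hv
  refine ⟨hv, v0, rfl, fun _ => rfl, rfl, fun _ => rfl, fun _ => rfl, fun _ => rfl, rfl,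
    fun o ho => ?_, fun o => ?_, ?_⟩
  · simp only [(foldl_lb1 _ _).1, w.mem _ hu, w.rv_lt ho, true_and, Gf.tl_rv]
  · simp only [(foldl_lb1 _ _).2, List.mem_append, List.mem_reverse, w.mem _ hu]
  · have := w.deg (d.mt.get v)
    simp only [(foldl_lb1 _ _).2, List.length_append, List.length_reverse]; omega

theorem log_three_le : Real.log 3 ≤ 6 / 5 := by
  have a := Real.log_two_lt_d9
  have b := log_sub_le (a := 3) (b := 2) (t := 1 / 2) (by norm_num) (by norm_num) (by norm_num)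
  linarith

namespace Cx
variable {T : Type} {X : Cx T} {s : St T} {N : Net} {d d' : Dt} {v u : ℕ}

theorem Inv.pos' (h : X.Ok) (i : X.I s N) (a : Arcs X.P.D X.C X.G d N) :
    ∀ e ∈ N.E, 0 < N.X e ∧ N.X e < (N.arc e).o3 := fun e he => by
  have := Inv.pos h i he
  rw [a.arc e he, arcOf_o1] at this
  rw [a.arc e he]; omega

/-- a pending sink pays its normalisation up to `log 3` -/
theorem Ok.le_pend (h : X.Ok) (i : X.I s N) (a : Arcs X.P.D X.C X.G d N) (hv : 5 * v + 4 ∈ N.E) :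
    2 * X.C.Z * (lM X.P X.Bd - 6 / 5) ≤ bar X.P X.Bd (N.arc (5 * v + 4)) (N.X (5 * v + 4)) := by
  have p := Inv.pos h i hv
  have k := (le_bar h.D_pos h.s0_pos (h.ip.view i _ hv).2.1 p.1 p.2).2
  refine le_trans ?_ k
  rw [a.arc _ hv, arcOf4] at p ⊢
  simp only [aU] at p ⊢
  have D0 : (0 : ℝ) < X.P.D := by exact_mod_cast h.D_pos
  have M0 : (0 : ℝ) < X.Bd.Mu := by
    have := h.n_le_M; rw [← h.Mu]; exact_mod_cast (by omega : 0 < X.C.M)
  have x0 : (0 : ℝ) < N.X (5 * v + 4) := by exact_mod_cast (by omega : 0 < N.X (5 * v + 4))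
  have x1 : (N.X (5 * v + 4) : ℝ) ≤ 2 * X.P.D := by
    exact_mod_cast (by omega : N.X (5 * v + 4) ≤ 2 * X.P.D)
  have l : Real.log ((N.X (5 * v + 4) : ℝ) + X.P.D) ≤ Real.log (3 * X.P.D) :=
    Real.log_le_log (by positivity) (by linarith)
  rw [Real.log_mul (by norm_num) D0.ne'] at l
  rw [lM, Real.log_div M0.ne' D0.ne']
  push_cast
  exact mul_le_mul_of_nonneg_left (by linarith [log_three_le]) (by positivity)

theorem Ok.refunds (h : X.Ok) (i : X.I s N) (a : Arcs X.P.D X.C X.G d N) (c : Cmb X.G d)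
    (hu : u < X.G.n) : MOks X.Bd N (mvL X.G d u N.X) ∧
      pot X.P X.Bd (mvsN N (mvL X.G d u N.X)) ≤ pot X.P X.Bd N + 3 := by
  have len : (mvL X.G d u N.X).length ≤ 3 := by rw [mvL, List.length_map]; exact len_inL h.wf
  have p := Inv.pos' h i a
  have := h.BD_le; have := h.B.2; have := h.lam_le'; have := h.sm
  obtain ⟨k1, k2⟩ := Lb.refunds (N := N) (l := mvL X.G d u N.X) (b := X.C.B) h.D_pos h.s0_pos
    h.sm.2.1 h.sm.1 (by omega) fun q hq => by
      obtain ⟨o, ho, rfl⟩ := List.mem_map.1 hq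
      obtain ⟨b0, b1, b2, b3, b4⟩ := inL_arcs a h.wf c hu ho
      have x1 := out_le a c p b0 b1 (by rw [b2]; rfl)
      have x2 := out_le a c p b0 b3 (by rw [b4]; rfl)
      have : ((mvL X.G d u N.X).length + 1 : ℤ) * X.C.B ≤ 4 * X.C.B :=
        mul_le_mul_of_nonneg_right (by omega) (by positivity)
      refine ⟨b3, (h.ip.view i _ b3).2.1, by rw [b4]; rfl, by rw [b4]; rfl,
        (h.ip.view i _ b3).2.2.1.1, (p _ b1).1.le, x1, ?_⟩
      rw [b4]; simp only [snkA]; omega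
  have : ((mvL X.G d u N.X).length : ℝ) ≤ 3 := by exact_mod_cast len
  exact ⟨k1, by linarith⟩

/-- the two new arcs -/
theorem Ok.lb_big (h : X.Ok) {y : ℤ} (y1 : (99 * X.P.D : ℤ) ≤ 100 * y) (y2 : y ≤ 2 * X.P.D) :
    Big X.P (capA (v + 1) (u + 1) X.C.B) y ∧ Big X.P (snkA X.C u 2) y := by
  have := h.BD_le; have := h.B.2; have := h.lam_le'
  exact ⟨h.big rfl (by omega) (by simp only [capA]; omega),
    h.big rfl (by omega) (by simp only [snkA]; omega)⟩

theorem Ok.lb_pot (h : X.Ok) (i : X.I s N) (a : Arcs X.P.D X.C X.G d N) (c : Cmb X.G d)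
    (b : LbD X.G d d' v u) (y1 : (99 * X.P.D : ℤ) ≤ 100 * N.X (5 * v + 4)) :
    pot X.P X.Bd (lbN X.C X.G d v u N) ≤ pot X.P X.Bd N + 3 + 3 * X.Lg +
      2 * X.C.Z * (5 / 2 - lM X.P X.Bd) := by
  obtain ⟨a1, a2, a3, a4, a5, a6⟩ := b.facts c
  have v0 := b.v0; have mv := b.mv; have vn := b.vn
  have hE := mvsN_E (b.mv_mem h.wf c a N.X)
  have m4 := (a.mem _).2 (has4.2 ⟨vn, v0⟩)
  have m3 := (a.mem _).2 (has3.2 ⟨a1, by omega⟩)
  have m4' := (a.mem _).2 (has4.2 ⟨a1, a2⟩)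
  have m1 : 5 * v + 1 ∉ N.E := by rw [a.mem, has1, mv, v0]; simp [a3]
  have m2 : 5 * u + 2 ∉ N.E := by rw [a.mem, has2]; simp [isC, a2]
  have y2 := (Inv.pos' h i a _ m4).2
  rw [a.arc _ m4, arcOf4] at y2
  obtain ⟨g1, g2⟩ := h.lb_big (v := v) (u := u) y1 (by simp only [aU] at y2; omega)
  have c' := b.cmb c
  have A1 := h.arc c' (has1.2 ⟨vn, .inl (by simp [b.st, a3.symm])⟩)
  have A2 := h.arc c' (has2.2 ((b.isC_iff c u).2 (.inl rfl)))
  rw [← (b.on h.wf c (y := 0) (o := (5 * v + 1, false, some (capA (v + 1) (u + 1) X.C.B, 0)))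
    (by simp [opL])).2.2 _ rfl] at A1
  rw [← (b.on h.wf c (y := 0) (o := (5 * u + 2, false, some (snkA X.C u 2, 0)))
    (by simp [opL])).2.2 _ rfl] at A2
  have n1 := h.bar_new A1 g1 rfl
  have n2 := bar_le_fst h.D_pos h.s0_pos A2 g2
  have p1 := h.le_pend i a m4
  have p2 := h.le_pend i a m4'
  have p3 := Inv.bar_nonneg h i m3
  have r := (h.refunds i a c a1).2
  rw [lbN, pot_apps (nd_ids h.wf a1 a3 _)]
  simp only [opL, List.map_cons, List.sum_cons, nw_none, nw_some, old, hE, m4, m3, m4', m1, m2,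
    if_true, if_false, mvsN_arc, LbD.mv_X N.X (show (5 * v + 4) % 5 ≠ 2 by omega),
    LbD.mv_X N.X (show (5 * u + 4) % 5 ≠ 2 by omega),
    LbD.mv_X N.X (show (5 * u + 3) % 5 ≠ 2 by omega), List.map_map]
  have z : ((inL X.G d u).map ((fun o : Ox => nw (bar X.P X.Bd) o - if o.1 ∈ N.E then
      bar X.P X.Bd (N.arc o.1) ((mvsN N (mvL X.G d u N.X)).X o.1) else 0) ∘
      fun o => (5 * rv o, true, none))).sum ≤ 0 := by
    refine (List.sum_le_card_nsmul _ 0 fun q hq => ?_).trans (by simp)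
    obtain ⟨o, ho, rfl⟩ := List.mem_map.1 hq
    have b1 := (inL_arcs a h.wf c a1 ho).2.1
    simp only [Function.comp, nw_none, b1, if_true,
      LbD.mv_X N.X (show (5 * rv o) % 5 ≠ 2 by omega)]
    linarith [Inv.bar_nonneg h i b1]
  have D0 : (0 : ℝ) < X.P.D := by exact_mod_cast h.D_pos
  have M0 : (0 : ℝ) < X.Bd.Mu := by
    have := h.n_le_M; rw [← h.Mu]; exact_mod_cast (by omega : 0 < X.C.M)
  have y1' : (99 * X.P.D : ℝ) ≤ 100 * N.X (5 * v + 4) := by exact_mod_cast y1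
  have l := log_sub_le (a := X.P.D) (b := N.X (5 * v + 4)) (t := 1 / 10) D0 (by linarith)
    (by linarith)
  have lm : lM X.P X.Bd = X.Lg - Real.log X.P.D := Real.log_div M0.ne' D0.ne'
  have l' := mul_le_mul_of_nonneg_left l (by positivity : (0 : ℝ) ≤ 2 * X.C.Z)
  simp only [capA, snkA] at n1 n2 ⊢
  rw [lm] at p1 p2 ⊢
  unfold Lg at *
  push_cast at n1 n2
  rw [add_zero] at n2
  linarith

/-- **LABEL** -/
theorem labelSpec (h : X.Ok) : X.LabelSpec (labEv X.toEnv) := by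
  rintro ⟨s, d⟩ N v i room - hv v0 y1
  have b := lbD_of h.wf i.cmb hv v0
  set u := d.mt.get v with hu
  generalize hd' : (Dt.mk _ _ _ _ _ _ _ _) = d' at b
  obtain ⟨a1, a2, a3, a4, a5, a6⟩ := b.facts i.cmb
  have M := h.n_le_M; have MX := h.M_le_X; have ndl := h.wf.nd_le
  have len := len_inL (d := d) (u := u) h.wf
  have len' : ((inL X.G d u).length : ℝ) ≤ 3 := by exact_mod_cast len
  have deg := h.wf.deg u
  have rm := Room.le room (r := 100) (by have := h.Rm; omega)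
  have AU : (100 : ℝ) ≤ X.k.AU := by exact_mod_cast h.AU
  have lenA := mul_le_mul_of_nonneg_left len' (by linarith : (0 : ℝ) ≤ X.k.AU)
  have m4 := (i.arcs.mem _).2 (has4.2 ⟨hv, v0⟩)
  have c' := b.cmb i.cmb
  have y2 := (Inv.pos' h i.il.1 i.arcs _ m4).2
  rw [i.arcs.arc _ m4, arcOf4] at y2
  obtain ⟨g1, g2⟩ := h.lb_big (v := v) (u := u) y1 (by simp only [aU] at y2; omega)
  have BD := h.BD_le
  have W1 : Wd X.g.X (capA (v + 1) (u + 1) X.C.B) := by simp only [capA, Wd]; omega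
  have W2 : Wd X.g.X (snkA X.C u 2) := by
    have a := h.lam_le
    have : X.C.Z ≤ X.C.Ph * X.C.Z * X.C.lam :=
      (Nat.le_mul_of_pos_left _ (lt_of_lt_of_le (by norm_num) h.Ph)).trans
        (Nat.le_mul_of_pos_right _ h.lam_pos)
    have := h.Z_pos
    simp only [snkA, Wd]; omega
  push_cast at rm
  unfold labEv
  refine (sp_filterP _ _).bind fun l t0 ⟨el, f0⟩ => ?_
  change l = inL X.G d u at el
  subst el
  refine (sp_mapL' (fun o => 5 * rv o) (fun _ => 0) fun o ho => sp_nat.2 ⟨by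
    have := h.wf.rv_lt ((mem_inL h.wf a1).1 ho).1; omega, rfl, le_rfl⟩).bind
    fun ids t1 ⟨ei, f1⟩ => ?_
  subst ei
  rw [sp_bind, sp_nat]
  refine ⟨by omega, (sp_gets h.ip i.il.1 _ (by simp; linarith) fun e he => ?_).bind
    fun r t2 ⟨i2, x2, n2, _, u2⟩ => ?_⟩
  · rcases List.mem_cons.1 he with rfl | he
    · exact m4
    · obtain ⟨o, ho, rfl⟩ := List.mem_map.1 he
      exact (inL_arcs i.arcs h.wf i.cmb a1 ho).2.1
  refine (sp_mapL' (fun o => (5 * d.cls.get (X.G.hd o) + 2, N.X (5 * rv o))) (fun _ => 0)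
    fun o ho => ?_).bind fun m t3 ⟨em, f3⟩ => ?_
  · refine ⟨by have := (inL_arcs i.arcs h.wf i.cmb a1 ho).1.1; omega, ?_, le_rfl⟩
    rw [x2, if_pos (List.mem_cons_of_mem _ (List.mem_map_of_mem ho))]
  change m = mvL X.G d u N.X at em
  subst em
  have lm : ((mvL X.G d u N.X).length : ℝ) = (inL X.G d u).length := by simp [mvL]
  have P2 := u2.phi
  simp only [List.length_cons, List.length_map, Nat.cast_add, Nat.cast_one] at P2 u2
  refine (sp_mvs h.ip h.Mu_le_X i2 (by rw [lm]; linarith)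
    (h.refunds i.il.1 i.arcs i.cmb a1).1).bind fun s1 t4 ⟨i4, n4, u4⟩ => ?_
  refine (sp_mapP _ _).bind fun dl t5 ⟨ed, f5⟩ => ?_
  subst ed
  simp only [sp_bind, sp_nat, sp_pure]
  refine ⟨by omega, by omega, by omega, by omega, (sp_arcN W1).mono fun A1 t6 ⟨e1, f6⟩ =>
    (sp_arcN W2).mono fun A2 t7 ⟨e2, f7⟩ => ?_⟩
  subst e1 e2
  rw [x2, if_pos List.mem_cons_self, List.map_map]
  have P4 := u4.phi
  rw [lm] at P4 u4
  have lo : ((opL X.C X.G d v u (N.X (5 * v + 4))).length : ℝ) = (inL X.G d u).length + 5 := by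
    simp [opL]; ring
  refine (sp_ops (l := opL X.C X.G d v u (N.X (5 * v + 4))) h.ip i4 (by rw [lo]; linarith)
    (oks_of_nodup (nd_ids h.wf a1 a3 _) fun o ho => ⟨?_, fun z hz => ?_⟩)).mono
    fun s2 t8 ⟨i8, n8, u8⟩ => (sp_foldP _ _ _).mono fun p t9 ⟨ep, f9⟩ => ?_
  · rw [mvsN_E (b.mv_mem h.wf i.cmb i.arcs N.X), i.arcs.mem,
      (b.on (D := X.P.D) h.wf i.cmb ho).1]
  · obtain ⟨-, k1, k2⟩ := b.on (D := X.P.D) h.wf i.cmb ho
    refine ⟨k2 z hz ▸ h.arc c' (k1.2 (by simp [hz])), ?_⟩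
    simp only [opL, List.mem_cons, List.mem_map] at ho
    rcases ho with rfl | rfl | rfl | rfl | rfl | ⟨j, -, rfl⟩ <;> cases hz
    exacts [h.dom g1, h.dom g2]
  subst ep
  rw [hd']
  rw [lo] at u8
  refine Post.of' (r := 1) i i8 (((u2.trans u4).trans u8).mono (A' := 100 * (X.k.AU + 1)) ?_)
    (b.arcs h.wf i.cmb i.arcs) c' (b.qok h.wf i.cmb i.q) (by linarith [h.AU_le]) ?_
  · have : t0 + t1 + t3 + t5 + t6 + t7 + t9 ≤ 40 := by
      simp only [List.map_const', List.sum_replicate, smul_zero, List.length_map] at f1 f3 f5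
      have g0 : t0 ≤ 2 * (X.G.adj.get u).length + 2 := f0
      have g9 : t9 = (X.G.adj.get u).length + 1 := f9
      omega
    have : (t0 + t1 + t3 + t5 + t6 + t7 + t9 : ℝ) ≤ 40 := by exact_mod_cast this
    push_cast; linarith
  · have p := h.lb_pot i.il.1 i.arcs i.cmb b y1
    have q := b.psi (X := X) i.cmb
    have z := h.Lg_le
    have z' : (4000 * (X.C.K + 5) : ℝ) ≤ X.C.Z := by exact_mod_cast h.Z.1
    have K0 : (0 : ℝ) ≤ X.C.K := by positivity
    have l2 := mul_le_mul_of_nonneg_left Real.log_two_lt_d9.le (by positivity : (0 : ℝ) ≤ X.C.Z)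
    change _ + (pot X.P X.Bd (lbN X.C X.G d v u N) + _) ≤ _
    linarith

end Cx

end Crest.Agent.N325.P2
end

-- ▼ part N325/Mg/Net
section

/-!
# Row 325, P2 MERGE (helper4): contraction of a region of the network
-/

set_option autoImplicit false
open Finset

namespace Crest.Agent.N325.Mg

open Crest.Agent.N325.Ip

/-- `N'` arises from `N` by renaming the nodes along `ρ`, deleting loops, and replacing the sinks
`Sk` and the sources `Gh` of the node `t` by the single sink `k` -/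
structure Ctr (N N' : Net) (ρ : ℕ → ℕ) (k t : ℕ) (Sk Gh : Finset ℕ) : Prop where
  k_mem : k ∈ N'.E
  keep : ∀ e ∈ N'.E, e ≠ k → e ∈ N.E ∧ e ∉ Sk ∧ e ∉ Gh ∧ N'.X e = N.X e ∧
    N'.arc e = { N.arc e with a := ρ (N.arc e).a, b := ρ (N.arc e).b }
  ka : (N'.arc k).a = t
  kb : (N'.arc k).b = 0
  kx : N'.X k = ∑ e ∈ Sk, N.X e - ∑ e ∈ Gh, N.X e
  sk : ∀ e ∈ Sk, e ∈ N.E ∧ e ∉ Gh ∧ ρ (N.arc e).a = t ∧ ρ (N.arc e).b = 0
  gh : ∀ e ∈ Gh, e ∈ N.E ∧ ρ (N.arc e).a = 0 ∧ ρ (N.arc e).b = t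
  k_sk : k ∈ Sk
  loop : ∀ e ∈ N.E, e ∉ N'.E → e ∉ Sk → e ∉ Gh → ρ (N.arc e).a = ρ (N.arc e).b

variable {N N' : Net} {ρ : ℕ → ℕ} {k t : ℕ} {Sk Gh : Finset ℕ} {P : Pm} {B : Bn}

theorem Ctr.circ (h : Ctr N N' ρ k t Sk Gh) (c : N.Circ N.X) : N'.Circ N'.X := by
  intro z
  have h0 := c fun v => z (ρ v)
  have s1 : Sk ∪ Gh ⊆ N.E := union_subset (fun e k => (h.sk e k).1) fun e k => (h.gh e k).1
  rw [← sum_sdiff s1, sum_union (disjoint_left.2 fun e k => (h.sk e k).2.1)] at h0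
  have e1 : ∑ e ∈ Sk, N.X e * (z (ρ (N.arc e).b) - z (ρ (N.arc e).a)) =
      (∑ e ∈ Sk, N.X e) * (z 0 - z t) := by
    rw [sum_mul]
    exact sum_congr rfl fun e k => by rw [(h.sk e k).2.2.1, (h.sk e k).2.2.2]
  have e2 : ∑ e ∈ Gh, N.X e * (z (ρ (N.arc e).b) - z (ρ (N.arc e).a)) =
      (∑ e ∈ Gh, N.X e) * (z t - z 0) := by
    rw [sum_mul]
    exact sum_congr rfl fun e k => by rw [(h.gh e k).2.1, (h.gh e k).2.2]
  have e3 : ∑ e ∈ N'.E.erase k, N'.X e * (z (N'.arc e).b - z (N'.arc e).a) =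
      ∑ e ∈ N.E \ (Sk ∪ Gh), N.X e * (z (ρ (N.arc e).b) - z (ρ (N.arc e).a)) := by
    rw [← sum_subset (s₁ := N'.E.erase k) (s₂ := N.E \ (Sk ∪ Gh)) (fun e c => ?_)
      fun e c c' => ?_]
    · refine sum_congr rfl fun e c => ?_
      obtain ⟨-, -, -, x, y⟩ := h.keep e (mem_erase.1 c).2 (mem_erase.1 c).1
      rw [x, y]
    · obtain ⟨x, y, z, -⟩ := h.keep e (mem_erase.1 c).2 (mem_erase.1 c).1
      simp [x, y, z]
    · simp only [mem_sdiff, mem_union, not_or] at c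
      rw [h.loop e c.1 (fun x => c' (mem_erase.2 ⟨fun y => c.2.1 (y ▸ h.k_sk), x⟩)) c.2.1 c.2.2,
        sub_self, mul_zero]
  rw [← add_sum_erase _ _ h.k_mem, e3, h.ka, h.kb, h.kx]
  rw [e1, e2] at h0
  linear_combination h0

theorem Ctr.pot_le (h : Ctr N N' ρ k t Sk Gh) (p : ∀ e ∈ N.E, 0 ≤ bar P B (N.arc e) (N.X e)) :
    pot P B N' + ∑ e ∈ Sk, bar P B (N.arc e) (N.X e) ≤
      pot P B N + bar P B (N'.arc k) (N'.X k) := by
  have : ∑ e ∈ N'.E.erase k, bar P B (N'.arc e) (N'.X e) ≤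
      ∑ e ∈ N.E \ Sk, bar P B (N.arc e) (N.X e) := by
    refine le_trans (sum_congr rfl fun e c => ?_).le (sum_le_sum_of_subset_of_nonneg
      (s := N'.E.erase k) (fun e c => ?_) fun e c _ => p e (mem_sdiff.1 c).1)
    · obtain ⟨-, -, -, x, y⟩ := h.keep e (mem_erase.1 c).2 (mem_erase.1 c).1
      rw [x, y]; rfl
    · obtain ⟨x, y, -⟩ := h.keep e (mem_erase.1 c).2 (mem_erase.1 c).1
      exact mem_sdiff.2 ⟨x, y⟩
  rw [pot, pot, ← add_sum_erase _ _ h.k_mem,
    ← sum_sdiff (s₁ := Sk) (s₂ := N.E) fun e c => (h.sk e c).1]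
  linarith

/-- the flow of an arc out of `t` is at most the flow of the only arc into `t` -/
theorem le_entry (c : N.Circ N.X) (p : ∀ e ∈ N.E, 0 ≤ N.X e) {i : ℕ} (hk : k ∈ N.E)
    (ka : (N.arc k).a = t) (kb : (N.arc k).b ≠ t) (hi : i ∈ N.E)
    (u : ∀ e ∈ N.E, (N.arc e).b = t → e = i) : N.X k ≤ N.X i := by
  have h0 := c fun v => if v = t then 1 else 0
  have : ∑ e ∈ N.E, N.X e * ((if (N.arc e).b = t then 1 else 0) -
      if (N.arc e).a = t then 1 else 0) ≤
      ∑ e ∈ N.E, ((if e = i then N.X i else 0) - if e = k then N.X k else 0) := by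
    refine sum_le_sum fun e he => ?_
    have := p e he
    have := p i hi
    by_cases x : e = k
    · subst x; rw [if_neg kb, if_pos ka, if_pos rfl]; split_ifs <;> linarith
    · rw [if_neg x]
      by_cases y : (N.arc e).b = t
      · rw [if_pos y, if_pos (u e he y), u e he y]; split_ifs <;> linarith
      · rw [if_neg y]; split_ifs <;> linarith
  rw [h0, sum_sub_distrib, sum_ite_eq' , sum_ite_eq', if_pos hi, if_pos hk] at this
  linarith

/-- the log-sum inequality with a small loss of flow -/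
theorem log_merge {ι : Type*} (s : Finset ι) (c y : ι → ℝ) (hc : ∀ i ∈ s, 0 < c i)
    (hy : ∀ i ∈ s, 0 < y i) (hs : s.Nonempty) {g u : ℝ} (hu : 0 ≤ u) (h2 : 2 * g ≤ ∑ i ∈ s, y i)
    (hg : 2 * (∑ i ∈ s, c i) * g ≤ u * ∑ i ∈ s, y i) :
    (∑ i ∈ s, c i) * (Real.log (∑ i ∈ s, c i) - Real.log (∑ i ∈ s, y i - g)) ≤
      ∑ i ∈ s, c i * (Real.log (c i) - Real.log (y i)) + u := by
  have C := sum_pos hc hs
  have Y := sum_pos hy hs
  have h1 := log_sum s c y hc hy hs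
  set a := ∑ i ∈ s, c i
  set b := ∑ i ∈ s, y i
  have h3 : Real.log b - Real.log (b - g) ≤ u / a := by
    refine log_sub_le Y (by linarith) ?_
    have : g ≤ u / a * (b - g) := by
      rw [div_mul_eq_mul_div, le_div_iff₀ C]; nlinarith
    linarith
  have := mul_le_mul_of_nonneg_left h3 C.le
  rw [mul_div_cancel₀ _ C.ne'] at this
  nlinarith

end Crest.Agent.N325.Mg
end

-- ▼ part N325/Mg/Cmb
section

/-!
# Row 325, P2 MERGE (helper4): the data after a merge, combinatorial invariants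
-/

set_option autoImplicit false
open Finset

namespace Crest.Agent.N325.P2

open Crest.Agent.N325.Mt Crest.Agent.N325.Bf Crest.Agent.N325.Ip

/-- the members of the new class -/
def MgU (G : Gf) (d : Dt) (A C : List ℕ) (v : ℕ) : Prop :=
  v ∈ A ∨ (v < G.n ∧ d.st.get v = 2 ∧ d.cls.get v ∈ C)

instance (G : Gf) (d : Dt) (A C : List ℕ) (v : ℕ) : Decidable (MgU G d A C v) :=
  inferInstanceAs (Decidable (_ ∨ _))

/-- the data `e` after the merge, new name `c` -/
structure MgD (G : Gf) (d e : Dt) (A C : List ℕ) (b c : ℕ) (q : List ℕ) : Prop where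
  hc : c ∈ C
  st : ∀ v, e.st.get v = if v ∈ A then 2 else d.st.get v
  cls : ∀ v, e.cls.get v = if MgU G d A C v then c else d.cls.get v
  mem : ∀ x, x ≠ c → e.mem.get x = d.mem.get x
  nd : (e.mem.get c).Nodup
  memc : ∀ v, v ∈ e.mem.get c ↔ MgU G d A C v
  cw : ∀ x, x ≠ c → e.cw.get x = d.cw.get x
  cwc : e.cw.get c = (e.mem.get c).length
  bs : ∀ x, e.bs.get x = if x = c then d.bs.get b else d.bs.get x
  mt : e.mt = d.mt
  pr : ∀ o < G.nd, e.pr.get o = true ↔ d.pr.get o = true ∧ G.hd o ∉ A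
  Q : ∀ o, o ∈ e.Q ↔ o ∈ q ∨ (o < G.nd ∧ G.tl.get o ∈ A)

variable {G : Gf} {d e : Dt} {A C q : List ℕ} {o b c v : ℕ}

theorem Mgb.notA (h : Mgb G d o A C b) (k : d.st.get v ≠ 1) : v ∉ A := fun x => k (h.inn v x).2.1
theorem Mgb.notC (h : Mgb G d o A C b) (k : d.st.get v ≠ 2) : v ∉ C := fun x => k (h.cl v x).1.2.1
theorem Mgb.U_iff (h : Mgb G d o A C b) (hv : v < G.n) (k : d.st.get v = 2) :
    MgU G d A C v ↔ d.cls.get v ∈ C :=
  ⟨fun x => (x.resolve_left (h.notA (by omega))).2.2, fun x => .inr ⟨hv, k, x⟩⟩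
theorem Mgb.U_lt (h : Mgb G d o A C b) (k : MgU G d A C v) : v < G.n :=
  k.elim (fun x => (h.inn v x).1) fun x => x.1
theorem Mgb.U_mem (m : Cmb G d) (h : Mgb G d o A C b) (hc : c ∈ C) (k : v ∈ d.mem.get c) :
    MgU G d A C v := by
  obtain ⟨x, y, z⟩ := (m.mem c (h.cl c hc).1 v).1 k
  exact .inr ⟨x, y, z ▸ hc⟩

theorem MgD.st2 (D : MgD G d e A C b c q) (k : d.st.get v = 2) : e.st.get v = 2 := by
  rw [D.st, k, ite_self]
theorem MgD.st_ne (D : MgD G d e A C b c q) (k : e.st.get v ≠ 2) :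
    v ∉ A ∧ e.st.get v = d.st.get v := by
  have : v ∉ A := fun x => k (by rw [D.st, if_pos x])
  exact ⟨this, by rw [D.st, if_neg this]⟩
theorem MgD.stU (D : MgD G d e A C b c q) (k : MgU G d A C v) : e.st.get v = 2 :=
  k.elim (fun x => by rw [D.st, if_pos x]) fun x => D.st2 x.2.1

theorem MgD.isC_iff (D : MgD G d e A C b c q) (h : Mgb G d o A C b) {x : ℕ} :
    isC G e x ↔ isC G d x ∧ (x ∈ C → x = c) := by
  have hc := (h.cl c D.hc).1
  unfold isC at *
  rw [D.cls, D.st]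
  constructor
  · rintro ⟨a1, a2, a3⟩
    by_cases u : MgU G d A C x
    · rw [if_pos u] at a3; subst a3; exact ⟨hc, fun _ => rfl⟩
    · rw [if_neg u] at a3
      rw [if_neg fun y => u (.inl y)] at a2
      exact ⟨⟨a1, a2, a3⟩, fun y => absurd (.inr ⟨a1, a2, a3.symm ▸ y⟩) u⟩
  · rintro ⟨⟨a1, a2, a3⟩, a4⟩
    refine ⟨a1, by rw [a2, ite_self], ?_⟩
    split_ifs with u
    · exact (a4 (a3 ▸ (h.U_iff a1 a2).1 u)).symm
    · exact a3

theorem MgD.isC_c (D : MgD G d e A C b c q) (h : Mgb G d o A C b) : isC G e c :=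
  (D.isC_iff h).2 ⟨(h.cl c D.hc).1, fun _ => rfl⟩

/-- the mate of the base of `b` is not absorbed -/
theorem Mgb.top (m : Cmb G d) (h : Mgb G d o A C b) : d.mt.get (d.bs.get b) ∉ A := fun x => by
  obtain ⟨y, -, z⟩ := (m.mem b (h.cl b h.hb).1 _).1 (m.bs b (h.cl b h.hb).1).1
  exact (h.inn _ x).2.2.2 (by rw [m.mt_mt y, z])

theorem MgD.cmb (m : Cmb G d) (h : Mgb G d o A C b) (D : MgD G d e A C b c q) : Cmb G e := by
  have old : ∀ x, isC G e x → x ≠ c → isC G d x ∧ x ∉ C := fun x k n =>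
    ⟨((D.isC_iff h).1 k).1, fun y => n (((D.isC_iff h).1 k).2 y)⟩
  have memI : ∀ x, isC G e x → ∀ v, v ∈ e.mem.get x ↔ v < G.n ∧ e.st.get v = 2 ∧
      e.cls.get v = x := fun x k v => by
    by_cases n : x = c
    · subst n
      rw [D.memc]
      refine ⟨fun u => ⟨h.U_lt u, D.stU u, by rw [D.cls, if_pos u]⟩, fun ⟨y1, y2, y3⟩ => ?_⟩
      by_contra u
      rw [D.cls, if_neg u] at y3
      rw [D.st, if_neg fun y => u (.inl y)] at y2
      exact u (.inr ⟨y1, y2, y3 ▸ D.hc⟩)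
    · obtain ⟨k1, k2⟩ := old x k n
      rw [D.mem x n, m.mem x k1, D.cls]
      refine and_congr_right fun hv => ⟨fun ⟨y1, y2⟩ => ⟨D.st2 y1, ?_⟩, fun ⟨y1, y2⟩ => ?_⟩
      · rw [if_neg fun u => k2 (y2 ▸ (h.U_iff hv y1).1 u), y2]
      · by_cases u : MgU G d A C v
        · rw [if_pos u] at y2; exact absurd y2.symm n
        · rw [if_neg u] at y2
          rw [D.st, if_neg fun y => u (.inl y)] at y1
          exact ⟨y1, y2⟩
  refine ⟨D.mt ▸ m.isM, fun v hv => ?_, fun v hv k => ?_, fun v hv k => ?_, fun v hv k => ?_,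
    fun v hv k => ?_, fun x k => ?_, memI, fun x k => ?_, fun x k => ?_, fun x k v hv n => ?_,
    fun x k => ?_, fun o' ho k => ?_⟩
  · have := m.st_le v hv
    rw [D.st]; split_ifs <;> omega
  · obtain ⟨x, y⟩ := D.st_ne k
    rw [D.cls, if_neg fun u => k (D.stU u), m.cls_ne v hv (y ▸ k)]
  · obtain ⟨x, y⟩ := D.st_ne (v := v) (by omega)
    obtain ⟨z, w⟩ := m.unl v hv (y ▸ k)
    rw [D.mt, D.st, if_neg (h.notA (by omega))]
    exact ⟨z, w⟩
  · obtain ⟨x, y⟩ := D.st_ne (v := v) (by omega)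
    obtain ⟨z, w⟩ := m.inn v hv (y ▸ k)
    rw [D.mt, D.cls, D.bs]
    refine ⟨D.st2 z, ?_⟩
    by_cases u : MgU G d A C (d.mt.get v)
    · have u' := (h.U_iff (m.mt_lt hv) z).1 u
      rw [if_pos u, if_pos rfl, ← w]
      by_contra n
      refine x (m.mt_mt hv ▸ w ▸ (h.cl _ u').2 fun y => n ?_)
      rw [y]
    · rw [if_neg u, if_neg fun y : d.cls.get (d.mt.get v) = c =>
        u ((h.U_iff (m.mt_lt hv) z).2 (y ▸ D.hc)), w]
  · rw [D.cls]
    split_ifs with u
    · exact D.isC_c h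
    · rw [D.st, if_neg fun y => u (.inl y)] at k
      exact (D.isC_iff h).2 ⟨m.out v hv k, fun y => absurd ((h.U_iff hv k).2 y) u⟩
  · by_cases n : x = c
    · exact n ▸ D.nd
    · rw [D.mem x n]; exact m.nodup x (old x k n).1
  · by_cases n : x = c
    · exact n ▸ D.cwc
    · rw [D.mem x n, D.cw x n]; exact m.cw x (old x k n).1
  · rw [D.mt, D.bs]
    split_ifs with n
    · obtain ⟨y, z⟩ := m.bs b (h.cl b h.hb).1
      refine ⟨n ▸ (D.memc _).2 (h.U_mem m h.hb y), z.imp id fun z => ?_⟩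
      rw [D.st, if_neg (h.top m), z]
    · obtain ⟨k1, k2⟩ := old x k n
      obtain ⟨y, z⟩ := m.bs x k1
      refine ⟨D.mem x n ▸ y, z.imp id fun z => ?_⟩
      obtain ⟨y1, -, y3⟩ := (m.mem x k1 _).1 y
      rw [D.st, if_neg fun w => k2 ?_, z]
      have := (h.inn _ w).2.2.1
      rwa [m.mt_mt y1, y3] at this
  · rw [D.mt]
    rw [D.bs] at n
    by_cases n' : x = c
    · subst n'
      rw [if_pos rfl] at n
      rw [D.memc] at hv ⊢
      rcases hv with y | ⟨y1, y2, y3⟩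
      · obtain ⟨z1, z2, z3, -⟩ := h.inn v y
        have := (m.inn v z1 z2).1
        exact ⟨.inr ⟨m.mt_lt z1, this, z3⟩, fun w => by rw [w] at this; omega⟩
      · have i := (h.cl _ y3).1
        by_cases w : v = d.bs.get (d.cls.get v)
        · have := (h.cl _ y3).2 fun z => n (z ▸ w)
          rw [← w] at this
          exact ⟨.inl this, fun z => h.notA (by omega) (z ▸ this)⟩
        · exact (m.inside _ i v ((m.mem _ i v).2 ⟨y1, y2, rfl⟩) w).imp (h.U_mem m y3) id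
    · rw [if_neg n'] at n
      rw [D.mem x n'] at hv ⊢
      exact m.inside x (old x k n').1 v hv n
  · by_cases n : x = c
    · subst n
      convert h.fc using 1
      ext v
      simp only [List.mem_toFinset, D.memc, mem_union, mem_biUnion]
      refine or_congr_right ⟨fun ⟨y1, y2, y3⟩ => ⟨_, y3, (m.mem _ (h.cl _ y3).1 v).2 ⟨y1, y2, rfl⟩⟩,
        fun ⟨y, y1, y2⟩ => ?_⟩
      obtain ⟨z1, z2, z3⟩ := (m.mem _ (h.cl _ y1).1 v).1 y2
      exact ⟨z1, z2, z3 ▸ y1⟩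
    · rw [D.mem x n]; exact m.fc x (old x k n).1
  · obtain ⟨x, y⟩ := (D.pr o' ho).1 k
    obtain ⟨z1, z2, z3⟩ := m.pr o' ho x
    rw [D.mt, D.st (G.hd o'), if_neg y]
    exact ⟨D.st2 z1, z2, z3⟩

theorem MgD.qok (w : G.WF) (h : Mgb G d o A C b) (D : MgD G d e A C b c q) (k : QOk G d)
    (hq : d.Q = o :: q) : QOk G e := by
  have ho : o < G.nd := k.lt o (hq ▸ List.mem_cons_self)
  have same : ∀ x y, x < G.n → y < G.n → d.st.get x = 2 → d.st.get y = 2 →
      (d.cls.get x = d.cls.get y ∨ (d.cls.get x ∈ C ∧ d.cls.get y ∈ C)) →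
      e.st.get x = 2 ∧ e.cls.get x = e.cls.get y := fun x y hx hy sx sy z => by
    refine ⟨D.st2 sx, ?_⟩
    simp only [D.cls, h.U_iff hx sx, h.U_iff hy sy]
    rcases z with z | z
    · rw [z]
    · rw [if_pos z.1, if_pos z.2]
  refine ⟨fun x y => ((D.Q x).1 y).elim (fun y => k.lt x (hq ▸ List.mem_cons_of_mem _ y))
    fun y => y.1, fun x hx => ?_⟩
  by_cases a : G.tl.get x ∈ A
  · exact .inl ((D.Q x).2 (.inr ⟨hx, a⟩))
  by_cases a' : G.hd x ∈ A
  · exact .inr (.inr ⟨D.stU (.inl a'), (D.Q _).2 (.inr ⟨w.rv_lt hx, a'⟩)⟩)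
  by_cases s : d.st.get (G.tl.get x) = 2
  swap
  · exact .inr (.inl (.inl (by rw [D.st, if_neg a]; exact s)))
  rcases k.cmp x hx with y | y | ⟨y, z⟩
  · rcases List.mem_cons.1 (hq ▸ y) with rfl | y
    · exact .inr (.inl (.inr (.inr (.inr (same _ _ (w.hd_lt hx) (w.tl_lt _ hx) h.hd.1 s
        (.inr ⟨h.hd.2, h.tl.2⟩))))))
    · exact .inl ((D.Q x).2 (.inl y))
  · rcases y with y | y | y | y
    · exact absurd s y
    · exact .inr (.inl (.inr (.inl ((D.pr x hx).2 ⟨y, a'⟩))))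
    · exact .inr (.inl (.inr (.inr (.inl (D.mt ▸ y)))))
    · exact .inr (.inl (.inr (.inr (.inr (same _ _ (w.hd_lt hx) (w.tl_lt _ hx) y.1 s
        (.inl y.2))))))
  · rcases List.mem_cons.1 (hq ▸ z) with z | z
    · have t1 := h.tl.2
      have t2 := h.hd.2
      rw [← z, Gf.tl_rv] at t1
      rw [← z, Gf.hd_rv] at t2
      exact .inr (.inl (.inr (.inr (.inr (same _ _ (w.hd_lt hx) (w.tl_lt _ hx) y s
        (.inr ⟨t1, t2⟩))))))
    · exact .inr (.inr ⟨D.st2 y, (D.Q _).2 (.inl z)⟩)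

/-- the renaming of the nodes -/
def mgR (A C : List ℕ) (c v : ℕ) : ℕ := if v ≠ 0 ∧ (v - 1 ∈ A ∨ v - 1 ∈ C) then c + 1 else v

theorem mgR_zero : mgR A C c 0 = 0 := by simp [mgR]
theorem mgR_pos (k : v ∈ A ∨ v ∈ C) : mgR A C c (v + 1) = c + 1 := by simp [mgR, k]
theorem mgR_neg (k : v ∉ A) (k' : v ∉ C) : mgR A C c (v + 1) = v + 1 := by simp [mgR, k, k']
theorem MgD.mgR_cls (m : Cmb G d) (h : Mgb G d o A C b) (D : MgD G d e A C b c q) (hv : v < G.n)
    (k : d.st.get v = 2) : mgR A C c (d.cls.get v + 1) = e.cls.get v + 1 := by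
  simp only [D.cls, h.U_iff hv k]
  split_ifs with u
  · exact mgR_pos (.inr u)
  · exact mgR_neg (h.notA (by rw [(m.out v hv k).2.1]; omega)) u

theorem Cmb.st_mt (m : Cmb G d) (hv : v < G.n) (k : d.st.get v = 1 ∨ d.mt.get v = v) :
    d.st.get (d.mt.get v) = 2 :=
  k.elim (fun k => (m.inn v hv k).1) fun k => k.symm ▸ (m.root hv k).1

theorem MgD.key {D₀ : ℕ} {K : Cf} {i : ℕ} (w : G.WF) (m : Cmb G d) (h : Mgb G d o A C b)
    (D : MgD G d e A C b c q) (this : has G e i) (n : i ≠ 5 * c + 2) :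
    has G d i ∧ ¬(i % 5 = 2 ∧ i / 5 ∈ C) ∧ ¬(i % 5 = 3 ∧ i / 5 ∈ A) ∧
      arcOf D₀ K G e i = { arcOf D₀ K G d i with
        a := mgR A C c (arcOf D₀ K G d i).a, b := mgR A C c (arcOf D₀ K G d i).b } := by
  obtain ⟨v, rfl | rfl | rfl | rfl | rfl⟩ := id_cases i
  · obtain ⟨x, y⟩ := has0.1 this
    obtain ⟨y, z⟩ := (D.pr v x).1 y
    obtain ⟨z1, z2, -⟩ := m.pr v x y
    refine ⟨has0.2 ⟨x, y⟩, by omega, by omega, ?_⟩
    simp only [arcOf0, aP, capA, D.mgR_cls m h (w.tl_lt v x) z1, mgR_neg z (h.notC z2)]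
  · obtain ⟨x, y⟩ := has1.1 this
    rw [D.mt] at y
    have y' : d.st.get v = 1 ∨ d.mt.get v = v :=
      y.imp (fun y => (D.st_ne (v := v) (by omega)).2.symm.trans y) id
    refine ⟨has1.2 ⟨x, y'⟩, by omega, by omega, ?_⟩
    simp only [arcOf1, aE, capA, D.mt, D.mgR_cls m h (m.mt_lt x) (m.st_mt x y')]
    split_ifs with z
    · rw [mgR_zero]
    · have z1 := y.resolve_right z
      have z2 := y'.resolve_right z
      rw [mgR_neg (D.st_ne (v := v) (by omega)).1 (h.notC (by omega))]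
  · obtain ⟨x, y⟩ := (D.isC_iff h).1 (has2.1 this)
    have n' : v ≠ c := fun z => n (by rw [z])
    refine ⟨has2.2 x, fun z => n' (y (by
      simpa only [show (5 * v + 2) / 5 = v by omega] using z.2)), by omega, ?_⟩
    simp only [arcOf2, snkA, D.cw v n', mgR_zero,
      mgR_neg (h.notA (by rw [x.2.1]; omega)) fun z => n' (y z)]
  · obtain ⟨x, y⟩ := has3.1 this
    obtain ⟨y1, y2⟩ := D.st_ne y
    refine ⟨has3.2 ⟨x, y2 ▸ y⟩, by omega, fun z => y1 (by
      simpa only [show (5 * v + 3) / 5 = v by omega] using z.2), ?_⟩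
    simp only [arcOf3, aG, mgR_zero, mgR_neg y1 (h.notC (y2 ▸ y))]
  · obtain ⟨x, y⟩ := has4.1 this
    obtain ⟨y1, y2⟩ := D.st_ne (v := v) (by omega)
    refine ⟨has4.2 ⟨x, y2 ▸ y⟩, by omega, by omega, ?_⟩
    simp only [arcOf4, aU, mgR_zero, mgR_neg y1 (h.notC (by omega))]

/-- arcs that do not change -/
theorem MgD.off {D₀ : ℕ} {K : Cf} {L : List ℕ} (w : G.WF) (m : Cmb G d) (h : Mgb G d o A C b)
    (D : MgD G d e A C b c q) (l0 : ∀ x < G.nd, G.hd x ∈ A ∨ (d.st.get (G.tl.get x) = 2 ∧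
      d.cls.get (G.tl.get x) ∈ C ∧ d.cls.get (G.tl.get x) ≠ c) → 5 * x ∈ L)
    (l1 : 5 * d.mt.get (d.bs.get b) + 1 ∈ L) (l2 : ∀ x ∈ A, 5 * x + 1 ∈ L ∧ 5 * x + 3 ∈ L)
    (l3 : ∀ x ∈ C, 5 * x + 2 ∈ L) (i : ℕ) (n : i ∉ L) : (has G e i ↔ has G d i) ∧
      (has G d i → arcOf D₀ K G e i = arcOf D₀ K G d i) := by
  obtain ⟨v, rfl | rfl | rfl | rfl | rfl⟩ := id_cases i
  · rw [has0, has0, arcOf0, arcOf0]
    refine ⟨and_congr_right fun x => (D.pr v x).trans
      (and_iff_left fun y => n (l0 v x (.inl y))), fun ⟨x, y⟩ => ?_⟩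
    have z := (m.pr v x y).1
    simp only [aP, D.cls, h.U_iff (w.tl_lt v x) z]
    split_ifs with u
    · rw [show d.cls.get (G.tl.get v) = c from by_contra fun k => n (l0 v x (.inr ⟨z, u, k⟩))]
    · rfl
  · have a : v ∉ A := fun y => n (l2 v y).1
    rw [has1, has1, arcOf1, arcOf1, D.mt, D.st, if_neg a]
    refine ⟨Iff.rfl, fun ⟨x, y⟩ => ?_⟩
    have z := m.st_mt x y
    simp only [aE, D.mt, D.cls, h.U_iff (m.mt_lt x) z]
    rw [if_neg (c := d.cls.get (d.mt.get v) ∈ C) fun u => ?_]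
    have k : d.mt.get (d.bs.get (d.cls.get (d.mt.get v))) = v := by
      rcases y with y | y
      · rw [(m.inn v x y).2, m.mt_mt x]
      · rw [y, (m.root x y).2, y]
    by_cases k' : d.cls.get (d.mt.get v) = b
    · exact n (by rw [← k, k']; exact l1)
    · exact a (k ▸ (h.cl _ u).2 k')
  · have a : v ∉ C := fun y => n (l3 v y)
    rw [has2, has2, arcOf2, arcOf2, D.isC_iff h, D.cw v fun k => a (k ▸ D.hc)]
    exact ⟨and_iff_left fun k => absurd k a, fun _ => rfl⟩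
  · rw [has3, has3, arcOf3, arcOf3, D.st, if_neg fun y => n (l2 v y).2]
    exact ⟨Iff.rfl, fun _ => rfl⟩
  · rw [has4, has4, arcOf4, arcOf4, D.st]
    refine ⟨and_congr_right fun _ => ?_, fun _ => rfl⟩
    split_ifs with y
    · simp [(h.inn v y).2.1]
    · rfl

/-- the new network is a contraction of the old one -/
theorem MgD.ctr {D₀ : ℕ} {K : Cf} {N N' : Net} (w : G.WF) (m : Cmb G d) (h : Mgb G d o A C b)
    (D : MgD G d e A C b c q) (a : Arcs D₀ K G d N) (a1 : ∀ i, i ∈ N'.E ↔ has G e i)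
    (a2 : ∀ i ∈ N'.E, N'.arc i = arcOf D₀ K G e i)
    (a3 : ∀ i ∈ N'.E, i ≠ 5 * c + 2 → i ∈ N.E → N'.X i = N.X i)
    (a4 : N'.X (5 * c + 2) = (C.map fun x => N.X (5 * x + 2)).sum -
      (A.map fun x => N.X (5 * x + 3)).sum) :
    Mg.Ctr N N' (mgR A C c) (5 * c + 2) (c + 1) (C.toFinset.image fun x => 5 * x + 2)
      (A.toFinset.image fun x => 5 * x + 3) := by
  have k0 : 5 * c + 2 ∈ N'.E := (a1 _).2 (has2.2 (D.isC_c h))
  have s : ∀ i, i ∈ C.toFinset.image (fun x => 5 * x + 2) ↔ i % 5 = 2 ∧ i / 5 ∈ C := fun i => by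
    simp only [mem_image, List.mem_toFinset]
    exact ⟨fun ⟨x, y, z⟩ => ⟨by omega, by rwa [show i / 5 = x by omega]⟩,
      fun ⟨x, y⟩ => ⟨_, y, by omega⟩⟩
  have g : ∀ i, i ∈ A.toFinset.image (fun x => 5 * x + 3) ↔ i % 5 = 3 ∧ i / 5 ∈ A := fun i => by
    simp only [mem_image, List.mem_toFinset]
    exact ⟨fun ⟨x, y, z⟩ => ⟨by omega, by rwa [show i / 5 = x by omega]⟩,
      fun ⟨x, y⟩ => ⟨_, y, by omega⟩⟩
  refine ⟨k0, fun i hi n => ?_, by rw [a2 _ k0, arcOf2]; rfl, by rw [a2 _ k0, arcOf2]; rfl, ?_,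
    fun i hi => ?_, fun i hi => ?_, (s _).2 ⟨by omega, by
      rw [show (5 * c + 2) / 5 = c by omega]; exact D.hc⟩, fun i hi n n1 n2 => ?_⟩
  · have key := D.key (D₀ := D₀) (K := K) w m h ((a1 i).1 hi) n
    have hN := (a.mem i).2 key.1
    rw [s, g, a2 i hi, a.arc i hN]
    exact ⟨hN, key.2.1, key.2.2.1, a3 i hi n hN, key.2.2.2⟩
  · rw [a4, sum_image fun _ _ _ _ z => by simpa using z,
      sum_image fun _ _ _ _ z => by simpa using z, List.sum_toFinset _ h.ndC,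
      List.sum_toFinset _ h.ndA]
  · obtain ⟨x, y, rfl⟩ := mem_image.1 hi
    rw [List.mem_toFinset] at y
    have hN := (a.mem _).2 (has2.2 (h.cl x y).1)
    rw [g, a.arc _ hN, arcOf2]
    exact ⟨hN, by omega, mgR_pos (.inr y), mgR_zero⟩
  · obtain ⟨x, y, rfl⟩ := mem_image.1 hi
    rw [List.mem_toFinset] at y
    have hN := (a.mem _).2 (has3.2 ⟨(h.inn x y).1, by rw [(h.inn x y).2.1]; omega⟩)
    rw [a.arc _ hN, arcOf3]
    exact ⟨hN, mgR_zero, mgR_pos (.inl y)⟩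
  · rw [a1] at n
    rw [s] at n1
    rw [g] at n2
    rw [a.arc i hi]
    have := (a.mem i).1 hi
    obtain ⟨v, rfl | rfl | rfl | rfl | rfl⟩ := id_cases i
    · obtain ⟨x, y⟩ := has0.1 this
      have z : G.hd v ∈ A := by_contra fun z => n (has0.2 ⟨x, (D.pr v x).2 ⟨y, z⟩⟩)
      rw [arcOf0]
      exact (mgR_pos (.inr (h.into v x y z))).trans (mgR_pos (.inl z)).symm
    · obtain ⟨x, y⟩ := has1.1 this
      have z : v ∈ A := by_contra fun z => n (has1.2 ⟨x, by rwa [D.mt, D.st, if_neg z]⟩)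
      have z' : d.mt.get v ≠ v := fun u => h.notA (by rw [(m.root x u).1]; omega) z
      simp only [arcOf1, aE, capA, if_neg z']
      exact (mgR_pos (.inl z)).trans (mgR_pos (.inr (h.inn v z).2.2.1)).symm
    · exact absurd (has2.2 ((D.isC_iff h).2 ⟨has2.1 this, fun z => absurd ⟨by omega, by
        rwa [show (5 * v + 2) / 5 = v by omega]⟩ n1⟩)) n
    · obtain ⟨x, y⟩ := has3.1 this
      refine absurd (has3.2 ⟨x, ?_⟩) n
      rwa [D.st, if_neg fun z => n2 ⟨by omega, by rwa [show (5 * v + 3) / 5 = v by omega]⟩]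
    · obtain ⟨x, y⟩ := has4.1 this
      exact absurd (has4.2 ⟨x, by rwa [D.st, if_neg (h.notA (by omega))]⟩) n

end Crest.Agent.N325.P2
end

-- ▼ part N325/Mg/Dat
section

/-!
# Row 325, P2 MERGE (helper4): the programs on the data
-/

set_option autoImplicit false
open Finset

namespace Crest.Agent.N325.P2

open Crest.Agent.N325.Mt Crest.Agent.N325.Bf Crest.Agent.N325.Ip

/-- the ids `5 x + j`, in front of `m` -/
def idsL (j : ℕ) (l m : List ℕ) : R (List ℕ) :=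
  foldL (fun x s => nat (5 * x + j) >>= fun e => pure (e :: s)) l m

/-- a guarded sum of integers -/
def sumZ (f : ℕ → ℤ) (l : List ℕ) : R ℤ := foldL (fun x s => int (s + f x)) l 0

/-- new name, renamed vertices, darts into `A`, new data -/
def mgD (G : Gf) (d : Dt) (A C : List ℕ) (b : ℕ) (q : List ℕ) : R (ℕ × List ℕ × List ℕ × Dt) :=
  foldP (fun x c => if d.cw.get c < d.cw.get x then x else c) C b >>= fun c =>
  flatMapP (fun x => if x = c then [] else d.mem.get x) C >>= fun Rn =>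
  revAppL A Rn >>= fun W =>
  setAllP (fun _ => 2) A d.st >>= fun st =>
  setAllP (fun _ => c) W d.cls >>= fun cls =>
  revAppL W (d.mem.get c) >>= fun me =>
  lenL W >>= fun l => nat (d.cw.get c + l) >>= fun w =>
  flatMapP (fun v => G.adj.get v) A >>= fun O => mapP (fun x => rv x) O >>= fun O' =>
  setAllP (fun _ => false) O' d.pr >>= fun pr =>
  revAppL O q >>= fun Q =>
  pure (c, Rn, O', ⟨st, cls, d.mem.set c me, d.cw.set c w, d.bs.set c (d.bs.get b), d.mt, pr, Q⟩)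

/-- the ids of the arcs that change -/
def mgL (G : Gf) (d : Dt) (A C : List ℕ) (b : ℕ) (Rn I : List ℕ) : R (List ℕ) :=
  flatMapP (fun v => G.adj.get v) Rn >>= fun O => nat (5 * d.mt.get (d.bs.get b) + 1) >>= fun i =>
  idsL 0 I [i] >>= fun L1 => idsL 0 O L1 >>= fun L2 => idsL 1 A L2 >>= fun L3 =>
  idsL 3 A L3 >>= fun L4 => idsL 2 C L4

variable {g : Gl} {G : Gf} {d : Dt} {A C q Rn I : List ℕ} {o b : ℕ}

theorem sp_idsL {j : ℕ} {l m : List ℕ} (h : ∀ x ∈ l, 5 * x + j ≤ g.X) :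
    Sp g (idsL j l m) fun r t => (∀ e ∈ m, e ∈ r) ∧ (∀ x ∈ l, 5 * x + j ∈ r) ∧
      r.length = l.length + m.length ∧ t ≤ l.length + 1 :=
  (sp_foldL' (fun l' s => (∀ x ∈ l', 5 * x + j ≤ g.X) ∧ (∀ e ∈ m, e ∈ s) ∧
      (∀ x ∈ l, x ∈ l' ∨ 5 * x + j ∈ s) ∧ s.length + l'.length = l.length + m.length) (fun _ => 0)
    (fun a l' s ⟨k1, k2, k3, k4⟩ => sp_bind.2 (sp_nat.2 ⟨k1 a List.mem_cons_self,
      ⟨fun x i => k1 x (List.mem_cons_of_mem _ i), fun e i => List.mem_cons_of_mem _ (k2 e i),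
        fun x i => by
          rcases k3 x i with y | y
          · exact (List.mem_cons.1 y).elim (fun y => .inr (y ▸ List.mem_cons_self)) .inl
          · exact .inr (List.mem_cons_of_mem _ y),
        by simp only [List.length_cons] at k4 ⊢; omega⟩, le_rfl⟩))
    (l := l) (s := m) ⟨h, fun _ i => i, fun _ i => .inl i, add_comm _ _⟩).mono
    fun r t k => ⟨k.1.2.1, fun x i => (k.1.2.2.1 x i).resolve_left List.not_mem_nil,
      k.1.2.2.2, by simpa using k.2⟩

theorem sp_sumZ {f : ℕ → ℤ} {l : List ℕ} (h : ∀ x ∈ l, 0 ≤ f x) (k : (l.map f).sum ≤ g.X) :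
    Sp g (sumZ f l) fun r t => r = (l.map f).sum ∧ t ≤ l.length + 1 :=
  (sp_foldL' (fun l' s => (∀ x ∈ l', 0 ≤ f x) ∧ 0 ≤ s ∧ s + (l'.map f).sum = (l.map f).sum)
    (fun _ => 0) (fun a l' s ⟨k1, k2, k3⟩ => by
      rw [List.map_cons, List.sum_cons] at k3
      have a1 := k1 a List.mem_cons_self
      have a2 : ∀ x ∈ l', 0 ≤ f x := fun x i => k1 x (List.mem_cons_of_mem _ i)
      have a3 : 0 ≤ (l'.map f).sum := List.sum_nonneg fun y i => by
        obtain ⟨x, j, rfl⟩ := List.mem_map.1 i; exact a2 x j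
      exact sp_int.2 ⟨by omega, ⟨a2, by omega, by omega⟩, le_rfl⟩) (l := l) (s := 0)
    ⟨h, le_rfl, zero_add _⟩).mono fun r t k => ⟨by simpa using k.1.2.2, by simpa using k.2⟩

theorem foldl_argmax (f : ℕ → ℕ) (l : List ℕ) (b c : ℕ)
    (h : c = l.foldl (fun c x => if f c < f x then x else c) b) :
    (c = b ∨ c ∈ l) ∧ f b ≤ f c ∧ ∀ x ∈ l, f x ≤ f c := by
  induction l generalizing b with
  | nil => exact ⟨.inl h, h ▸ le_rfl, fun _ i => absurd i List.not_mem_nil⟩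
  | cons a l ih =>
    obtain ⟨k1, k2, k3⟩ := ih _ h
    simp only [List.mem_cons, forall_eq_or_imp]
    dsimp only at k1 k2
    split_ifs at k1 k2 with e
    · exact ⟨.inr k1, by omega, k2, k3⟩
    · exact ⟨k1.imp id .inr, k2, by omega, k3⟩

theorem Gf.WF.len_out (w : G.WF) (l : List ℕ) :
    (l.flatMap fun v => G.adj.get v).length ≤ 3 * l.length := by
  induction l with
  | nil => simp
  | cons a l ih =>
    have := w.deg a
    simp only [List.flatMap_cons, List.length_append, List.length_cons]; omega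

theorem Gf.WF.mem_out (w : G.WF) {l : List ℕ} (h : ∀ v ∈ l, v < G.n) {x : ℕ} :
    x ∈ (l.flatMap fun v => G.adj.get v) ↔ x < G.nd ∧ G.tl.get x ∈ l := by
  rw [List.mem_flatMap]
  exact ⟨fun ⟨v, a, k⟩ => have := (w.mem v (h v a) x).1 k; ⟨this.1, this.2 ▸ a⟩,
    fun ⟨a, k⟩ => ⟨_, k, (w.mem _ (h _ k) x).2 ⟨a, rfl⟩⟩⟩

theorem len_le_of_lt {l : List ℕ} {n : ℕ} (nd : l.Nodup) (h : ∀ v ∈ l, v < n) : l.length ≤ n := by
  rw [← List.toFinset_card_of_nodup nd]
  exact (card_le_card fun u k => mem_range.2 (h u (List.mem_toFinset.1 k))).trans (card_range _).le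

theorem sp_mgD (w : G.WF) (m : Cmb G d) (h : Mgb G d o A C b) (hX : G.n ≤ g.X) :
    Sp g (mgD G d A C b q) fun r t => MgD G d r.2.2.2 A C b r.1 q ∧
      (∀ x ∈ C, d.cw.get x ≤ d.cw.get r.1) ∧ r.2.1.Nodup ∧
      (∀ v, v ∈ r.2.1 ↔ v < G.n ∧ d.st.get v = 2 ∧ d.cls.get v ∈ C ∧ d.cls.get v ≠ r.1) ∧
      (∀ x, x ∈ r.2.2.1 ↔ x < G.nd ∧ G.hd x ∈ A) ∧ r.2.2.1.length ≤ 3 * A.length ∧
      r.2.2.2.Q.length ≤ q.length + 3 * A.length ∧ t ≤ 30 * (A.length + r.2.1.length + 1) := by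
  refine (sp_foldP _ _ _).bind fun c t0 ⟨e0, u0⟩ => ?_
  obtain ⟨c1, -, c2⟩ := foldl_argmax d.cw.get C b c e0
  have hc : c ∈ C := c1.elim (fun k => k ▸ h.hb) id
  have ic := (h.cl c hc).1
  refine (sp_flatMapP _ _).bind fun Rn t1 ⟨e1, u1⟩ => ?_
  rw [← e1] at u1
  have mR : ∀ v, v ∈ Rn ↔ v < G.n ∧ d.st.get v = 2 ∧ d.cls.get v ∈ C ∧ d.cls.get v ≠ c := fun v => by
    rw [e1, List.mem_flatMap]
    constructor
    · rintro ⟨x, a, k⟩
      split_ifs at k with n
      · exact absurd k List.not_mem_nil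
      · obtain ⟨y1, y2, rfl⟩ := (m.mem x (h.cl x a).1 v).1 k
        exact ⟨y1, y2, a, n⟩
    · rintro ⟨y1, y2, y3, y4⟩
      exact ⟨_, y3, by rw [if_neg y4]; exact (m.mem _ (h.cl _ y3).1 v).2 ⟨y1, y2, rfl⟩⟩
  have nR : Rn.Nodup := by
    rw [e1, List.nodup_flatMap]
    refine ⟨fun x a => ?_, h.ndC.pairwise_of_forall_ne fun x a y a' n => ?_⟩
    · split_ifs
      · exact List.nodup_nil
      · exact m.nodup x (h.cl x a).1
    · refine fun v k k' => n ?_
      dsimp only at k k'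
      split_ifs at k k' <;> first | exact absurd k List.not_mem_nil | exact absurd k' List.not_mem_nil | skip
      exact ((m.mem x (h.cl x a).1 v).1 k).2.2.symm.trans ((m.mem y (h.cl y a').1 v).1 k').2.2
  refine (sp_revAppL _ _).bind fun W t2 ⟨e2, u2⟩ => ?_
  have mW : ∀ v, v ∈ W ↔ v ∈ A ∨ v ∈ Rn := fun v => by simp [e2]
  have lW : W.length = A.length + Rn.length := by simp [e2]
  have mE : ∀ v, v ∈ W.reverse ++ d.mem.get c ↔ MgU G d A C v := fun v => by
    rw [List.mem_append, List.mem_reverse, mW, mR, m.mem c ic, or_assoc]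
    refine or_congr_right ⟨fun k => k.elim (fun k => ⟨k.1, k.2.1, k.2.2.1⟩)
      fun k => ⟨k.1, k.2.1, k.2.2 ▸ hc⟩, fun k => ?_⟩
    exact (em (d.cls.get v = c)).elim (fun y => .inr ⟨k.1, k.2.1, y⟩)
      fun y => .inl ⟨k.1, k.2.1, k.2.2, y⟩
  have nE : (W.reverse ++ d.mem.get c).Nodup := by
    refine List.Nodup.append (List.nodup_reverse.2 ?_) (m.nodup c ic) fun v k k' => ?_
    · rw [e2]
      exact List.Nodup.append (List.nodup_reverse.2 h.ndA) nR fun v k k' =>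
        h.notA (by rw [((mR v).1 k').2.1]; omega) (List.mem_reverse.1 k)
    · obtain ⟨-, y, z⟩ := (m.mem c ic v).1 k'
      rcases (mW v).1 (List.mem_reverse.1 k) with k | k
      · exact h.notA (by omega) k
      · exact ((mR v).1 k).2.2.2 z
  have lE : (W.reverse ++ d.mem.get c).length = d.cw.get c + W.length := by
    rw [List.length_append, List.length_reverse, m.cw c ic, add_comm]
  refine (sp_setAllP _ _ _).bind fun st t3 ⟨e3, u3⟩ => (sp_setAllP _ _ _).bind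
    fun cls t4 ⟨e4, u4⟩ => (sp_revAppL _ _).bind fun me t5 ⟨e5, u5⟩ => (sp_lenL _).bind
    fun l t6 ⟨e6, u6⟩ => sp_bind.2 (sp_nat.2 ⟨?_, (sp_flatMapP _ _).bind
    fun O t7 ⟨e7, u7⟩ => (sp_mapP _ _).bind fun O' t8 ⟨e8, u8⟩ => (sp_setAllP _ _ _).bind
    fun pr t9 ⟨e9, u9⟩ => (sp_revAppL _ _).bind fun Q t10 ⟨e10, u10⟩ => ?_⟩)
  · rw [e6, ← lE]
    exact (len_le_of_lt nE fun v k => h.U_lt ((mE v).1 k)).trans hX
  have lO : O.length ≤ 3 * A.length := e7 ▸ w.len_out A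
  have mO : ∀ x, x ∈ O ↔ x < G.nd ∧ G.tl.get x ∈ A := fun x =>
    e7 ▸ w.mem_out fun v k => (h.inn v k).1
  have lO' : O'.length = O.length := by rw [e8, List.length_map]
  have mO' : ∀ x, x ∈ O' ↔ x < G.nd ∧ G.hd x ∈ A := fun x => by
    rw [e8, List.mem_map]
    refine ⟨fun ⟨y, a, k⟩ => ?_, fun ⟨a, k⟩ => ⟨rv x, (mO _).2 ⟨w.rv_lt a, k⟩, rv_rv x⟩⟩
    rw [← k, Gf.hd_rv]
    exact ⟨w.rv_lt ((mO y).1 a).1, ((mO y).1 a).2⟩
  rw [← e7] at u7
  have := h.card
  refine ⟨⟨hc, e3, fun v => ?_, fun x n => Arr.get_set_ne _ n _, ?_, fun v => ?_,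
    fun x n => Arr.get_set_ne _ n _, ?_, fun x => rfl, rfl, fun x a => ?_, fun x => ?_⟩,
    c2, nR, mR, mO', by dsimp only; omega, ?_, by dsimp only; omega⟩
  · change cls.get v = _
    simp only [e4, ← mE, List.mem_append, List.mem_reverse]
    by_cases k : v ∈ W
    · rw [if_pos k, if_pos (.inl k)]
    · rw [if_neg k]
      split_ifs with k'
      · exact ((m.mem c ic v).1 (k'.resolve_left k)).2.2
      · rfl
  · simpa only [Arr.get_set_self, e5] using nE
  · simpa only [Arr.get_set_self, e5] using mE v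
  · simp only [Arr.get_set_self, e5, e6, lE]
  · change pr.get x = true ↔ _
    simp only [e9, mO']
    by_cases k : G.hd x ∈ A <;> simp [k, a]
  · change x ∈ Q ↔ _
    rw [e10, List.mem_append, List.mem_reverse, mO, or_comm]
  · change Q.length ≤ _
    rw [e10, List.length_append, List.length_reverse]; omega

theorem sp_mgL (w : G.WF) (m : Cmb G d) (h : Mgb G d o A C b) (hX : 15 * G.n + 5 ≤ g.X)
    (hR : ∀ v ∈ Rn, v < G.n) (hI : ∀ x ∈ I, x < G.nd) :
    Sp g (mgL G d A C b Rn I) fun L t => (∀ x ∈ I, 5 * x ∈ L) ∧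
      (∀ x < G.nd, G.tl.get x ∈ Rn → 5 * x ∈ L) ∧ 5 * d.mt.get (d.bs.get b) + 1 ∈ L ∧
      (∀ x ∈ A, 5 * x + 1 ∈ L ∧ 5 * x + 3 ∈ L) ∧ (∀ x ∈ C, 5 * x + 2 ∈ L) ∧
      L.length ≤ I.length + 3 * Rn.length + 3 * A.length + 2 ∧
      t ≤ I.length + 11 * (Rn.length + A.length + 1) := by
  have nd := w.nd_le
  have cd := h.card
  have i0 := m.mt_lt ((m.mem b (h.cl b h.hb).1 _).1 (m.bs b (h.cl b h.hb).1).1).1
  refine (sp_flatMapP _ _).bind fun O t0 ⟨e0, u0⟩ => ?_
  rw [← e0] at u0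
  have lO : O.length ≤ 3 * Rn.length := e0 ▸ w.len_out Rn
  have mO : ∀ x, x ∈ O ↔ x < G.nd ∧ G.tl.get x ∈ Rn := fun x => e0 ▸ w.mem_out hR
  refine sp_bind.2 (sp_nat.2 ⟨by omega, (sp_idsL fun x k => by have := hI x k; omega).bind
    fun L1 t1 ⟨a1, b1, c1, u1⟩ => (sp_idsL fun x k => by have := ((mO x).1 k).1; omega).bind
    fun L2 t2 ⟨a2, b2, c2, u2⟩ => (sp_idsL fun x k => by have := (h.inn x k).1; omega).bind
    fun L3 t3 ⟨a3, b3, c3, u3⟩ => (sp_idsL fun x k => by have := (h.inn x k).1; omega).bind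
    fun L4 t4 ⟨a4, b4, c4, u4⟩ => (sp_idsL fun x k => by have := (h.cl x k).1.1; omega).mono
    fun L5 t5 ⟨a5, b5, c5, u5⟩ => ⟨fun x k => a5 _ (a4 _ (a3 _ (a2 _ (b1 x k)))),
      fun x k k' => a5 _ (a4 _ (a3 _ (b2 x ((mO x).2 ⟨k, k'⟩)))),
      a5 _ (a4 _ (a3 _ (a2 _ (a1 _ List.mem_cons_self)))),
      fun x k => ⟨a5 _ (a4 _ (b3 x k)), a5 _ (b4 x k)⟩, b5, ?_, ?_⟩⟩)
  · rw [List.length_singleton] at c1; omega
  · omega

end Crest.Agent.N325.P2
end

-- ▼ part N325/Mg/Pot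

/-!
# Row 325, P2 MERGE (helper4): the potential
-/

set_option autoImplicit false
open Finset

namespace Crest.Agent.N325.P2

open Crest.Agent.N325.Mt Crest.Agent.N325.Bf Crest.Agent.N325.Ip

variable {G : Gf} {d e : Dt} {A C q Rn : List ℕ} {o b c v : ℕ}

/-- the size of the new class -/
theorem MgD.cw_eq (m : Cmb G d) (h : Mgb G d o A C b) (D : MgD G d e A C b c q) :
    e.cw.get c + 1 = ∑ x ∈ C.toFinset, (d.cw.get x + 1) := by
  have e1 : (e.mem.get c).toFinset =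
      A.toFinset ∪ C.toFinset.biUnion fun c => (d.mem.get c).toFinset := by
    ext v
    simp only [List.mem_toFinset, D.memc, mem_union, mem_biUnion]
    exact ⟨.imp id fun ⟨y1, y2, y3⟩ => ⟨_, y3, (m.mem _ (h.cl _ y3).1 v).2 ⟨y1, y2, rfl⟩⟩,
      fun k => k.elim .inl fun ⟨y, y1, y2⟩ => h.U_mem m y1 y2⟩
  rw [D.cwc, ← List.toFinset_card_of_nodup D.nd, e1, card_union_of_disjoint, card_biUnion,
    sum_add_distrib, sum_const, List.toFinset_card_of_nodup h.ndA,
    List.toFinset_card_of_nodup h.ndC, h.card,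
    sum_congr rfl fun x k => (List.toFinset_card_of_nodup
      (m.nodup x (h.cl x (List.mem_toFinset.1 k)).1)).trans
        (m.cw x (h.cl x (List.mem_toFinset.1 k)).1).symm]
  · simp only [smul_eq_mul, mul_one]; exact (add_assoc _ _ _).trans
      ((add_left_comm _ _ _).trans rfl)
  · intro x hx y hy n
    refine disjoint_left.2 fun v k k' => n ?_
    have hx := (h.cl x (List.mem_toFinset.1 hx)).1
    have hy := (h.cl y (List.mem_toFinset.1 hy)).1
    exact ((m.mem x hx v).1 (List.mem_toFinset.1 k)).2.2.symm.trans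
      ((m.mem y hy v).1 (List.mem_toFinset.1 k')).2.2
  · refine disjoint_left.2 fun v k k' => ?_
    obtain ⟨x, hx, k'⟩ := mem_biUnion.1 k'
    have := ((m.mem x (h.cl x (List.mem_toFinset.1 hx)).1 v).1 (List.mem_toFinset.1 k')).2.1
    exact h.notA (by omega) (List.mem_toFinset.1 k)

namespace Cx
variable {T : Type} {X : Cx T}

theorem nS_merge0 (h : Mgb X.G d o A C b) (D : MgD X.G d e A C b c q) : X.nS e 0 = X.nS d 0 := by
  unfold nS
  congr 1
  refine filter_congr fun v _ => ?_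
  rw [D.st]
  split_ifs with k
  · simp [(h.inn v k).2.1]
  · rfl

theorem nS_merge1 (h : Mgb X.G d o A C b) (D : MgD X.G d e A C b c q) :
    X.nS e 1 + A.length = X.nS d 1 := by
  unfold nS
  rw [← List.toFinset_card_of_nodup h.ndA, ← card_union_of_disjoint]
  · congr 1
    ext v
    simp only [mem_union, mem_filter, mem_range, List.mem_toFinset, D.st]
    by_cases k : v ∈ A
    · simp [k, (h.inn v k).1, (h.inn v k).2.1]
    · simp [k]
  · refine disjoint_left.2 fun v k k' => ?_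
    have := (mem_filter.1 k).2
    rw [D.st, if_pos (List.mem_toFinset.1 k')] at this
    omega

theorem Th_merge (H : X.Ok) (m : Cmb X.G d) (h : Mgb X.G d o A C b) (D : MgD X.G d e A C b c q)
    (big : ∀ x ∈ C, d.cw.get x ≤ d.cw.get c) (nd : Rn.Nodup)
    (hR : ∀ v ∈ Rn, v < X.G.n ∧ d.st.get v = 2 ∧ d.cls.get v ∈ C ∧ d.cls.get v ≠ c) :
    X.Th e + Rn.length ≤ X.Th d + X.C.K * A.length := by
  have cw := D.cw_eq m h
  have up : Nat.log 2 (e.cw.get c) ≤ X.C.K := by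
    have := ((D.cmb m h).cw_le (D.isC_c h)).2
    have := H.K
    exact (Nat.log_lt_of_lt_pow' (by rintro k; rw [k] at this; omega) (by omega)).le
  have le1 : ∀ x ∈ C, d.cw.get x ≤ e.cw.get c := fun x k => by
    have := single_le_sum (f := fun x => d.cw.get x + 1) (fun _ _ => Nat.zero_le _)
      (List.mem_toFinset.2 k)
    omega
  have le2 : ∀ x ∈ C, x ≠ c → d.cw.get x * 2 ≤ e.cw.get c := fun x k n => by
    have := sum_le_sum_of_subset (f := fun x => d.cw.get x + 1) (s := {x, c}) (t := C.toFinset)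
      (by simp [insert_subset_iff, k, D.hc])
    rw [sum_pair n] at this
    have := big x k
    omega
  have eR : Rn.length = ∑ v ∈ range X.G.n, if v ∈ Rn then 1 else 0 := by
    rw [← card_filter, ← List.toFinset_card_of_nodup nd]
    congr 1; ext v; simpa using fun k => (hR v k).1
  have eA : X.C.K * A.length = ∑ v ∈ range X.G.n, if v ∈ A then X.C.K else 0 := by
    rw [← sum_filter, sum_const, smul_eq_mul, mul_comm, ← List.toFinset_card_of_nodup h.ndA]
    congr 2; ext v; simpa using fun k => (h.inn v k).1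
  rw [Th, Th, sum_filter, sum_filter, eR, eA, ← sum_add_distrib, ← sum_add_distrib]
  refine sum_le_sum fun v hv => ?_
  rw [mem_range] at hv
  by_cases a : v ∈ A
  · rw [if_neg fun k : v ∈ Rn => h.notA (by rw [(hR v k).2.1]; omega) a, if_pos a]
    split_ifs <;> omega
  rw [if_neg a, D.st, if_neg a]
  by_cases s : d.st.get v = 2
  swap
  · rw [if_neg s, if_neg s, if_neg fun k : v ∈ Rn => s (hR v k).2.1]
  rw [if_pos s, if_pos s, D.cls]
  simp only [h.U_iff hv s]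
  by_cases u : d.cls.get v ∈ C
  · rw [if_pos u]
    split_ifs with r
    · have := Nat.log_mono_right (b := 2) (le2 _ u (hR v r).2.2.2)
      rw [Nat.log_mul_base one_lt_two (by have := (m.cw_le (h.cl _ u).1).1; omega)] at this
      omega
    · have := Nat.log_mono_right (b := 2) (le1 _ u)
      omega
  · rw [if_neg u, if_neg fun r : v ∈ Rn => u (hR v r).2.2.1,
      D.cw (d.cls.get v) fun k => u (k ▸ D.hc)]

theorem offs_merge (h : Mgb X.G d o A C b) (D : MgD X.G d e A C b c q) :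
    X.offs e + ∑ x ∈ C.toFinset,
        (X.C.Z * (d.cw.get x + 1) : ℝ) * (lM X.P X.Bd - Real.log (d.cw.get x + 1)) =
      X.offs d + (X.C.Z * (e.cw.get c + 1) : ℝ) * (lM X.P X.Bd - Real.log (e.cw.get c + 1)) := by
  have e1 : (range X.G.n).filter (isC X.G e) =
      insert c ((range X.G.n).filter (isC X.G d) \ C.toFinset) := by
    ext x
    simp only [mem_filter, mem_range, mem_insert, mem_sdiff, List.mem_toFinset, D.isC_iff h]
    have := (h.cl c D.hc).1
    constructor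
    · rintro ⟨x1, x2, x3⟩
      exact (em (x ∈ C)).imp x3 fun k => ⟨⟨x1, x2⟩, k⟩
    · rintro (rfl | ⟨x1, x2⟩)
      · exact ⟨this.1, this, fun _ => rfl⟩
      · exact ⟨x1.1, x1.2, fun k => absurd k x2⟩
  have s : C.toFinset ⊆ (range X.G.n).filter (isC X.G d) := fun x k =>
    have := (h.cl x (List.mem_toFinset.1 k)).1
    mem_filter.2 ⟨mem_range.2 this.1, this⟩
  rw [offs, offs, nS_merge0 h D, e1, sum_insert (by simp [D.hc]), ← sum_sdiff s,
    sum_congr rfl (g := fun x => (X.C.Z * (d.cw.get x + 1) : ℝ) *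
      (lM X.P X.Bd - Real.log (d.cw.get x + 1))) fun x k => by
        rw [D.cw x fun y => (mem_sdiff.1 k).2 (List.mem_toFinset.2 (y ▸ D.hc))]]
  ring

/-- the flow of the new sink -/
theorem merge_flow {N : Net} (m : Cmb X.G d) (h : Mgb X.G d o A C b)
    (D : MgD X.G d e A C b c q) (k : Calm X.P.D X.C X.G d N)
    (gh : ∀ a ∈ A, (X.C.Ph * X.C.Z : ℤ) * N.X (5 * a + 3) ≤ X.P.D) :
    ((e.cw.get c + 1) * X.P.D : ℤ) ≤ 2 * X.C.Ph * ∑ x ∈ C.toFinset, N.X (5 * x + 2) ∧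
      (X.C.Ph * X.C.Z : ℤ) * ∑ x ∈ A.toFinset, N.X (5 * x + 3) ≤ A.length * X.P.D ∧
      A.length ≤ e.cw.get c := by
  refine ⟨?_, ?_, ?_⟩
  · have := congrArg (Nat.cast : ℕ → ℤ) (D.cw_eq m h)
    push_cast at this
    rw [this, sum_mul, mul_sum]
    exact sum_le_sum fun x hx => k.snk x (h.cl x (List.mem_toFinset.1 hx)).1
  · rw [mul_sum, ← List.toFinset_card_of_nodup h.ndA, ← nsmul_eq_mul]
    exact sum_le_card_nsmul _ _ _ fun x hx => gh x (List.mem_toFinset.1 hx)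
  · rw [D.cwc, ← List.toFinset_card_of_nodup h.ndA, ← List.toFinset_card_of_nodup D.nd]
    exact card_le_card fun v k => List.mem_toFinset.2 ((D.memc v).2 (.inl (List.mem_toFinset.1 k)))

/-- the balance of the sinks -/
theorem merge_bar {N : Net} {s : Ip.St T} (H : X.Ok) (m : Cmb X.G d) (h : Mgb X.G d o A C b)
    (D : MgD X.G d e A C b c q) (i : X.I s N) (a : Arcs X.P.D X.C X.G d N)
    (k : Calm X.P.D X.C X.G d N) (gh : ∀ a ∈ A, (X.C.Ph * X.C.Z : ℤ) * N.X (5 * a + 3) ≤ X.P.D)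
    {x : ℤ} (hx : x = ∑ x ∈ C.toFinset, N.X (5 * x + 2) - ∑ x ∈ A.toFinset, N.X (5 * x + 3))
    (hB : 100 * x ≤ X.C.M) (big : Big X.P (snkA X.C c (e.cw.get c + 1)) x) :
    bar X.P X.Bd (snkA X.C c (e.cw.get c + 1)) x - X.offs e ≤
      ∑ j ∈ C.toFinset.image (fun x => 5 * x + 2), bar X.P X.Bd (N.arc j) (N.X j) - X.offs d +
        (4 * A.length + 1) := by
  obtain ⟨f1, f2, f3⟩ := merge_flow m h D k gh
  have hA := H.arc (D.cmb m h) (has2.2 (D.isC_c h))
  rw [arcOf2] at hA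
  have Z0 : (20000 : ℝ) ≤ X.C.Z := by exact_mod_cast H.Z_pos
  have D0 : (0 : ℝ) < X.P.D := by exact_mod_cast H.D_pos
  have P0 : (0 : ℝ) < X.C.Ph := by exact_mod_cast lt_of_lt_of_le (by norm_num) H.Ph
  have M0 : (0 : ℝ) < X.Bd.Mu := by
    have := H.n_le_M; rw [← H.Mu]; exact_mod_cast (by omega : 0 < X.C.M)
  have mem : ∀ j ∈ C.toFinset, 5 * j + 2 ∈ N.E := fun j hj =>
    (a.mem _).2 (has2.2 (h.cl j (List.mem_toFinset.1 hj)).1)
  have pos : ∀ j ∈ C.toFinset, (0 : ℝ) < N.X (5 * j + 2) := fun j hj => by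
    have := (Inv.pos H i (mem j hj)).1
    rw [a.arc _ (mem j hj), arcOf_o1, Nat.cast_zero, add_zero] at this
    exact_mod_cast this
  have lo : ∀ j ∈ C.toFinset, (X.C.Z * (d.cw.get j + 1) : ℝ) *
      (Real.log X.Bd.Mu - Real.log (N.X (5 * j + 2))) ≤
      bar X.P X.Bd (N.arc (5 * j + 2)) (N.X (5 * j + 2)) := fun j hj => by
    have := (Lb.le_bar H.D_pos H.s0_pos (H.ip.view i _ (mem j hj)).2.1
      (Inv.pos H i (mem j hj)).1 (Inv.pos H i (mem j hj)).2).1
    refine le_trans (le_of_eq ?_) this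
    rw [a.arc _ (mem j hj), arcOf2]
    simp [snkA]
  have W := congrArg (Nat.cast : ℕ → ℝ) (D.cw_eq m h)
  have g1 : ((e.cw.get c + 1) * X.P.D : ℝ) ≤
      2 * X.C.Ph * ∑ x ∈ C.toFinset, (N.X (5 * x + 2) : ℝ) := by exact_mod_cast f1
  have g2 : (X.C.Ph * X.C.Z : ℝ) * ∑ x ∈ A.toFinset, (N.X (5 * x + 3) : ℝ) ≤
      A.length * X.P.D := by exact_mod_cast f2
  have g3 : (A.length : ℝ) ≤ e.cw.get c := by exact_mod_cast f3
  have g4 : (x : ℝ) = ∑ x ∈ C.toFinset, (N.X (5 * x + 2) : ℝ) -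
      ∑ x ∈ A.toFinset, (N.X (5 * x + 3) : ℝ) := by exact_mod_cast hx
  push_cast at W
  have key := Mg.log_merge C.toFinset (fun j => (d.cw.get j + 1 : ℝ))
    (fun j => (N.X (5 * j + 2) : ℝ)) (fun _ _ => by positivity) pos
    ⟨c, List.mem_toFinset.2 D.hc⟩ (g := ∑ x ∈ A.toFinset, (N.X (5 * x + 3) : ℝ))
    (u := 4 * A.length / X.C.Z) (by positivity) ?_ ?_
  · rw [← W, ← g4] at key
    have up : Real.log X.Bd.Mu - Real.log ((X.C.M : ℝ) - x) ≤ 1 := by
      have hB' : (100 * x : ℝ) ≤ X.Bd.Mu := by rw [← H.Mu]; exact_mod_cast hB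
      rw [H.Mu]
      exact log_sub_le M0 (by linarith) (by linarith)
    have of := offs_merge h D
    have l : lM X.P X.Bd = Real.log X.Bd.Mu - Real.log X.P.D := Real.log_div M0.ne' D0.ne'
    have s1 := sum_le_sum lo
    have s2 : ∑ j ∈ C.toFinset, (X.C.Z * (d.cw.get j + 1) : ℝ) *
        (Real.log X.Bd.Mu - Real.log (N.X (5 * j + 2))) = ∑ x ∈ C.toFinset,
        (X.C.Z * (d.cw.get x + 1) : ℝ) * (lM X.P X.Bd - Real.log (d.cw.get x + 1)) +
        X.C.Z * ∑ j ∈ C.toFinset, (d.cw.get j + 1 : ℝ) *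
          (Real.log (d.cw.get j + 1) - Real.log (N.X (5 * j + 2))) +
        X.C.Z * (e.cw.get c + 1) * Real.log X.P.D := by
      rw [W, mul_sum, mul_sum, sum_mul, ← sum_add_distrib, ← sum_add_distrib]
      exact sum_congr rfl fun j _ => by rw [l]; ring
    have key := mul_le_mul_of_nonneg_left key (by positivity : (0 : ℝ) ≤ X.C.Z)
    rw [mul_add, mul_div_cancel₀ _ (by positivity)] at key
    rw [big.bar_eq H.D_pos H.s0_pos hA, sum_image fun _ _ _ _ z => by simpa using z, barL]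
    simp only [snkA]
    push_cast
    rw [l] at of s2
    simp only [add_zero, zero_mul, one_mul, zero_add]
    nlinarith
  · refine le_of_mul_le_mul_left ?_ (mul_pos P0 (by linarith : (0 : ℝ) < X.C.Z))
    have : (4 * A.length * X.P.D : ℝ) ≤ X.C.Z * ((e.cw.get c + 1) * X.P.D) := by
      have : (4 * A.length : ℝ) ≤ X.C.Z * (e.cw.get c + 1) := by nlinarith
      nlinarith
    nlinarith
  · rw [← W, div_mul_eq_mul_div, le_div_iff₀ (by linarith)]
    refine le_of_mul_le_mul_left ?_ P0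
    have a1 := mul_le_mul_of_nonneg_left g2 (by positivity : (0 : ℝ) ≤ 2 * (e.cw.get c + 1))
    have a2 := mul_le_mul_of_nonneg_left g1 (by positivity : (0 : ℝ) ≤ 2 * A.length)
    nlinarith

end Cx

end Crest.Agent.N325.P2
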