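import Crest.Agent.N325.P2.Edge
import Crest.Agent.N325.P2.Rp
import Crest.Agent.N325.Mg.Pot_Mg
import Crest.Agent.N325.Ml.Phase
import Crest.Agent.N325.Lst.ListImpl
import Crest.Agent.N325.Bl.Trv
import Crest.Agent.N325.Dj.Impl
import Crest.Agent.N325.Ag.RotD
import Crest.Agent.N325.Ag.Defs
import Crest.Agent.N325.P2.App
import Crest.Agent.N325.P2.Dual2

-- ▼ part N325/P2/EdgeI
section

/-!
# Row 325, part II (helper95): the EDGE event is implementable
-/

set_option autoImplicit false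

namespace Crest.Agent.N325.P2

open Crest.Agent.N325.Tw Crest.Agent.N325.Ip Crest.Agent.N325.Mt Crest.Agent.N325.Bf
open Crest.Agent.N325.Dm Crest.Agent.N325.On

theorem bgi_bgOf {α : Type} [Rp α] {G : α → Gf} {d : α → Dt} (hG : Pu true G) (hd : Pu true d) :
    BgI fun a => bgOf (G a) (d a) := by
  have := hG.ar
  have := hd.ar
  refine ⟨?_, ?_, ?_, ?_⟩ <;> unfold bgOf <;> dsimp only <;> impl

theorem impl_edgeE {T : Type} [Rp T] {mg : Env T → S T → List ℕ → List ℕ → ℕ → List ℕ → R (S T)}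
    {ag : Env T → S T → ℕ → List ℕ → ℕ × List (ℕ × ℕ) → ℕ × List (ℕ × ℕ) → R (S T)}
    {wk : Env T → Dt → List ℕ × List ℕ × Ip.St T → R (List (List ℕ) × Ip.St T)}
    (hm : Impl fun p : Env T × S T × List ℕ × List ℕ × ℕ × List ℕ =>
      mg p.1 p.2.1 p.2.2.1 p.2.2.2.1 p.2.2.2.2.1 p.2.2.2.2.2)
    (ha : Impl fun p : Env T × S T × ℕ × List ℕ × (ℕ × List (ℕ × ℕ)) × ℕ × List (ℕ × ℕ) =>
      ag p.1 p.2.1 p.2.2.1 p.2.2.2.1 p.2.2.2.2.1 p.2.2.2.2.2)
    (hk : Impl fun p : Env T × Dt × List ℕ × List ℕ × Ip.St T => wk p.1 p.2.1 p.2.2) :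
    Impl fun p : Env T × S T × ℕ × List ℕ =>
      edgeE p.1 (mg p.1) (ag p.1) (wk p.1) p.2.1 p.2.2.1 p.2.2.2 := by
  have hb : BgI fun p : Env T × Dt => bgOf p.1.G p.2 := bgi_bgOf (by impl) (by impl)
  have h1 := impl_dom hb
  have h2 := impl_opn hb (pt := fun p a => p.2.cls.get (p.2.mt.get a))
    (wt := fun p c => min (p.2.cw.get c + 1) p.1.C.M) (wk := fun p => wk p.1 p.2)
    (by impl) (by impl) (by impl)
  obtain ⟨d1, e1⟩ : ∃ d : Env T × Dt → ℕ → ℕ → ℕ → R (Option (List ℕ × List ℕ × ℕ)),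
    ∀ (E : Env T) x, dom (bgOf E.G x) = d (E, x) :=
    ⟨fun p => dom (bgOf p.1.G p.2), fun _ _ => rfl⟩
  obtain ⟨d2, e2⟩ : ∃ d : Env T × Dt → ℕ → ℕ → ℕ → Ip.St T →
      R ((ℕ × List (ℕ × ℕ)) × (ℕ × List (ℕ × ℕ)) × Ip.St T),
    ∀ (E : Env T) x, opn (bgOf E.G x) (fun a => x.cls.get (x.mt.get a))
      (fun c => min (x.cw.get c + 1) E.C.M) (wk E x) = d (E, x) :=
    ⟨fun p => opn (bgOf p.1.G p.2) (fun a => p.2.cls.get (p.2.mt.get a))
      (fun c => min (p.2.cw.get c + 1) p.1.C.M) (wk p.1 p.2), fun _ _ => rfl⟩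
  unfold edgeE
  simp only [e1, e2] at h1 h2 ⊢
  impl

end Crest.Agent.N325.P2
end

-- ▼ part N325/Ml/Impl
section

/-!
# Row 325, part II (helper46): the main loop and the phases are implementable
-/

set_option autoImplicit false

namespace Crest.Agent.N325.P2

open Crest.Agent.N325.Tw Crest.Agent.N325.Ip Crest.Agent.N325.Mt Crest.Agent.N325.Bf

variable {α T : Type} [Rp α] [Rp T] {lab unl : Env T → S T → ℕ → R (S T)}
  {ins edg : Env T → S T → ℕ → List ℕ → R (S T)} {ini : Env T → T → Arr ℕ → R (S T)}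
  (hl : Impl fun p : Env T × S T × ℕ => lab p.1 p.2.1 p.2.2)
  (hu : Impl fun p : Env T × S T × ℕ => unl p.1 p.2.1 p.2.2)
  (hi : Impl fun p : Env T × S T × ℕ × List ℕ => ins p.1 p.2.1 p.2.2.1 p.2.2.2)
  (he : Impl fun p : Env T × S T × ℕ × List ℕ => edg p.1 p.2.1 p.2.2.1 p.2.2.2)
  (hn : Impl fun p : Env T × T × Arr ℕ => ini p.1 p.2.1 p.2.2)

include hl hu hi he hn in
theorem impl_phaseE : Impl fun p : Env T × T × Arr ℕ => phaseE lab unl ins edg ini p.1 p.2 := by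
  unfold phaseE phase loop step stepQ stepL; impl

include hl hu hi he hn in
theorem impl_p2 {run : α → Cmd × T → R (T × Rep × Bool)} {P : α → Pm} {G : α → Gf}
    {cf : α → ℕ → R Cf} {kb0 J : α → ℕ} {t0 : α → T} (hr : Pu true run) (hP : Pu true P)
    (hG : Pu true G) (hc : Impl fun p : α × ℕ => cf p.1 p.2) (hk : Pu true kb0)
    (hJ : Pu true J) (ht : Pu true t0) :
    Impl fun a => p2 lab unl ins edg ini (run a) (P a) (G a) (cf a) (kb0 a) (J a) (t0 a) := by
  have h := impl_phaseE hl hu hi he hn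
  have k : Impl fun p : (α × (Cmd × T → R (T × Rep × Bool))) => p2 lab unl ins edg ini p.2 (P p.1)
      (G p.1) (cf p.1) (kb0 p.1) (J p.1) (t0 p.1) := by
    unfold p2; impl
  exact k.comp (Pu.id.pair hr)

end Crest.Agent.N325.P2
end

-- ▼ part N325/Lb/Impl
section

/-!
# Row 325 (helper53): LABEL is implementable
-/

set_option autoImplicit false

namespace Crest.Agent.N325.P2

variable {T : Type} [Rp T]

theorem impl_labEv : Impl fun p : Env T × S T × ℕ => labEv p.1 p.2.1 p.2.2 := by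
  unfold labEv; impl

end Crest.Agent.N325.P2
end

-- ▼ part N325/Bl/UnlI
section

/-!
# Row 325, part II (helper70): UNLABEL is implementable
-/

set_option autoImplicit false

namespace Crest.Agent.N325.Bl

open Crest.Agent.N325.P2 Crest.Agent.N325.Ip Crest.Agent.N325.Dj

variable {α T : Type} [Rp α] [Rp T]

theorem impl_ballD {G : α → Dg} {cap : α → ℕ → ℕ → ℕ} {B fu T K H s : α → ℕ}
    (h1 : Pu true fun p : α × ℕ => (G p.1).adj p.2)
    (h2 : Pu false fun p : α × ℕ × ℕ => (G p.1).ok p.2.1 p.2.2)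
    (h3 : Pu true fun p : α × ℕ × ℕ => (G p.1).hd p.2.1 p.2.2)
    (h4 : Pu false fun p : α × ℕ × ℕ => (G p.1).ln p.2.1 p.2.2)
    (h5 : Pu true fun p : α × ℕ × ℕ => cap p.1 p.2.1 p.2.2) (hB : Pu true B) (hf : Pu true fu)
    (hT : Pu true T) (hK : Pu true K) (hH : Pu true H) (hs : Pu true s) :
    Impl fun a => ballD (G a) (cap a) (B a) (fu a) (T a) (K a) (H a) (s a) :=
  Impl.ball (adj := fun a => (G a).adj) (ok := fun a => (G a).ok) (hd := fun a => (G a).hd)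
    (dij := fun a => dijB (G a) (B a) (fu a) (s a)) h1 h2 h3 h5
    (Impl.bind (Impl.dij (G := fun p : α × ℕ => G p.1) (by impl) (by impl) (by impl) (by impl)
      (by impl) (by impl) (by impl) (by impl)) (by impl)) hT hK hH

/-- **UNLABEL** -/
theorem impl_unl {drop : Env T → S T → List ℕ → R (S T)}
    (hd : Impl fun p : Env T × S T × List ℕ => drop p.1 p.2.1 p.2.2) :
    Impl fun p : Env T × S T × ℕ => unl (drop p.1) p.1 p.2.1 p.2.2 := by
  unfold unl
  refine Impl.bind (by impl) (Impl.bind (by impl) (Impl.bind (by impl) (Impl.bind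
    (impl_ballD ?_ ?_ ?_ ?_ ?_ (by impl) (by impl) (by impl) (by impl) (by impl) (by impl)) ?_)))
  · unfold trav; impl
  · unfold trav; impl
  · unfold trav; impl
  · unfold trav; impl
  · unfold tcap; impl
  · unfold clO; impl

end Crest.Agent.N325.Bl
end

-- ▼ part N325/Ag/RotI
section

/-!
# Row 325, part II (helper14): the rotation is implementable
-/

set_option autoImplicit false

namespace Crest.Agent.N325.P2

open Crest.Agent.N325.Tw Crest.Agent.N325.Ip Crest.Agent.N325.Mt Crest.Agent.N325.Bf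
open Crest.Agent.N325.Op

variable {T : Type} [Rp T]

@[fun_prop] theorem impl_rotF : Impl fun p : Env T × St T × Dt × Dt × ℕ × ℕ =>
    rotF p.1 p.2.1 p.2.2.1 p.2.2.2.1 p.2.2.2.2.1 p.2.2.2.2.2 := by
  unfold rotF; impl

@[fun_prop] theorem impl_rot : Impl fun p : Env T × S T × ℕ => rot p.1 p.2.1 p.2.2 := by
  unfold rot; impl

end Crest.Agent.N325.P2
end

-- ▼ part N325/Ag/FoldI
section

/-!
# Row 325, part II (helper27): AUGMENT is implementable
-/

set_option autoImplicit false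

namespace Crest.Agent.N325.P2

variable {α T : Type} [Rp α] [Rp T] {rot fin : Env T → S T → ℕ → R (S T)} {E : α → Env T}

theorem impl_rots (hr : Impl fun p : Env T × S T × ℕ => rot p.1 p.2.1 p.2.2)
    {l : α → List (ℕ × ℕ)} {s : α → S T} (hE : Pu true E) (hl : Pu true l) (hs : Pu true s) :
    Impl fun a => rots (rot (E a)) (l a) (s a) := by
  have h : Impl fun p : Env T × List (ℕ × ℕ) × S T => rots (rot p.1) p.2.1 p.2.2 := by
    unfold rots
    exact Impl.foldL (hr.comp (f := fun q : (Env T × List (ℕ × ℕ) × S T) × (ℕ × ℕ) × S T =>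
      (q.1.1, q.2.2, q.2.1.2)) (by impl)) (by impl) (by impl)
  exact h.comp (f := fun a => (E a, l a, s a)) (hE.pair (hl.pair hs))

/-- the form used by `edgeE` -/
theorem impl_aug (hr : Impl fun p : Env T × S T × ℕ => rot p.1 p.2.1 p.2.2)
    (hf : Impl fun p : Env T × S T × ℕ => fin p.1 p.2.1 p.2.2)
    {s : α → S T} {o : α → ℕ} {q : α → List ℕ} {p1 p2 : α → ℕ × List (ℕ × ℕ)} (hE : Pu true E)
    (hs : Pu true s) (ho : Pu true o) (h1 : Pu true p1) (h2 : Pu true p2) :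
    Impl fun a => aug (rot (E a)) (fin (E a)) (s a) (o a) (q a) (p1 a) (p2 a) := by
  unfold aug
  refine Impl.bind (impl_rots hr hE (by impl) hs) (Impl.bind (impl_rots hr (by impl) (by impl)
    (by impl)) (hf.comp (f := fun q : (α × S T) × S T => (E q.1.1, q.2, o q.1.1)) (by impl)))

end Crest.Agent.N325.P2
end

-- ▼ part N325/Mg/Prog
section

/-!
# Row 325, P2 MERGE (helper4): the event
-/

set_option autoImplicit false
open Finset

namespace Crest.Agent.N325.P2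

open Crest.Agent.N325.Tw Crest.Agent.N325.Mt Crest.Agent.N325.Bf Crest.Agent.N325.Ip

/-- **MERGE** the classes `C` and the inner vertices `A` -/
def merge {T : Type} (E : Env T) (s : S T) (A C : List ℕ) (b : ℕ) (q : List ℕ) : R (S T) :=
  mgD E.G s.2 A C b q >>= fun r => mgL E.G s.2 A C b r.2.1 r.2.2.1 >>= fun L =>
  rd E s.1 s.2 L >>= fun u =>
  sumZ (fun x => u.2.get (5 * x + 2)) C >>= fun x => sumZ (fun x => u.2.get (5 * x + 3)) A >>= fun y =>
  int (x - y) >>= fun z => app E (u.1, s.2) r.2.2.2 L (u.2.set (5 * r.1 + 2) z)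

namespace Cx
variable {T : Type} {X : Cx T} {d e : Dt} {A C q Rn : List ℕ} {o b c : ℕ}

theorem sum_le_B {l : List ℕ} {f : ℕ → ℤ} (h : X.Ok) (k : ∀ x ∈ l, f x ≤ X.C.B)
    (n : l.length ≤ X.G.n) : 100 * (l.map f).sum ≤ X.C.M := by
  have a := List.sum_le_card_nsmul (l.map f) X.C.B fun y i => by
    obtain ⟨x, j, rfl⟩ := List.mem_map.1 i; exact k x j
  rw [List.length_map, nsmul_eq_mul] at a
  have : 100 * (l.length * X.C.B) ≤ X.C.M := le_trans (by
    rw [← mul_assoc]; exact Nat.mul_le_mul (by omega) (by omega)) h.M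
  have : (100 * (l.length * X.C.B) : ℤ) ≤ X.C.M := by exact_mod_cast this
  omega

/-- the flow of the new sink is large -/
theorem merge_lam {N : Net} (H : X.Ok) (m : Cmb X.G d) (h : Mgb X.G d o A C b)
    (D : MgD X.G d e A C b c q) (k : Calm X.P.D X.C X.G d N)
    (gh : ∀ a ∈ A, (X.C.Ph * X.C.Z : ℤ) * N.X (5 * a + 3) ≤ X.P.D) :
    (X.C.lam : ℤ) ≤ ∑ x ∈ C.toFinset, N.X (5 * x + 2) - ∑ x ∈ A.toFinset, N.X (5 * x + 3) := by
  obtain ⟨f1, f2, f3⟩ := merge_flow m h D k gh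
  have Z0 : (20000 : ℤ) ≤ X.C.Z := by exact_mod_cast H.Z_pos
  have P0 : (20000 : ℤ) ≤ X.C.Ph * X.C.Z := by exact_mod_cast H.PZ_pos
  have l0 : (20000 * (X.C.Ph * X.C.Z * X.C.lam) : ℤ) ≤ X.P.D := by exact_mod_cast H.lam_le
  have f4 : (A.length : ℤ) ≤ e.cw.get c := by exact_mod_cast f3
  have D0 : (0 : ℤ) ≤ X.P.D := Int.natCast_nonneg _
  have W0 : (0 : ℤ) ≤ e.cw.get c := Int.natCast_nonneg _
  have a1 := mul_le_mul_of_nonneg_left f1 (by omega : (0 : ℤ) ≤ X.C.Z)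
  have a2 := mul_le_mul_of_nonneg_right Z0 (by positivity : (0 : ℤ) ≤ (e.cw.get c + 1) * X.P.D)
  have a3 := mul_le_mul_of_nonneg_right f4 D0
  have a4 : (0 : ℤ) ≤ X.C.Ph * X.C.Z * X.C.lam := by positivity
  have a5 := mul_nonneg W0 D0
  refine le_of_mul_le_mul_left ?_ (by omega : (0 : ℤ) < X.C.Ph * X.C.Z)
  nlinarith

/-- the balance of the credits -/
theorem merge_Psi (H : X.Ok) (m : Cmb X.G d) (h : Mgb X.G d o A C b) (D : MgD X.G d e A C b c q)
    (big : ∀ x ∈ C, d.cw.get x ≤ d.cw.get c) (nd : Rn.Nodup)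
    (hR : ∀ v ∈ Rn, v < X.G.n ∧ d.st.get v = 2 ∧ d.cls.get v ∈ C ∧ d.cls.get v ≠ c)
    (hq : d.Q = o :: q) (lq : e.Q.length ≤ q.length + 3 * A.length) :
    X.Ψ e + X.offs e + (4 * A.length + 1) + (A.length + Rn.length + 1) + 1000 * (A.length + 1) ≤
      X.Ψ d + X.offs d := by
  have a1 := nS_merge0 h D
  have a2 := nS_merge1 h D
  have a3 := Th_merge H m h D big nd hR
  have a4 : X.C.Z * (4 * X.nS e 1 + e.Q.length) + X.Th e + (4 * A.length + 1) +
      (A.length + Rn.length + 1) + 1000 * (A.length + 1) ≤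
      X.C.Z * (4 * X.nS d 1 + d.Q.length) + X.Th d := by
    have z := H.Z.1
    have b1 := Nat.mul_le_mul_left X.C.Z (show 4 * X.nS e 1 + e.Q.length + (A.length + 1) ≤
      4 * X.nS d 1 + d.Q.length by rw [hq, List.length_cons]; omega)
    have b2 := Nat.mul_le_mul_right (A.length + 1) (show X.C.K + 2000 ≤ X.C.Z by omega)
    rw [mul_add] at b1
    nlinarith
  have a5 := (Nat.cast_le (α := ℝ)).2 a4
  push_cast at a5
  simp only [Ψ, a1, D.mt]
  linarith

/-- **MERGE** -/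
theorem mergeSpec (h : X.Ok) : X.MergeSpec (merge X.toEnv) := by
  rintro ⟨s, d⟩ N o q A C b i rm gd hq mg
  have m := i.cmb
  have w := h.wf
  have nM := h.n_le_M
  have MX := h.M_le_X
  have nA : A.length ≤ X.G.n := len_le_of_lt mg.ndA fun v k => (mg.inn v k).1
  have nC : C.length ≤ X.G.n := len_le_of_lt mg.ndC fun v k => (mg.cl v k).1.1
  refine (sp_mgD w m mg (by omega)).bind ?_
  rintro ⟨c, Rn, I, e⟩ t0 ⟨D, big, nR, mR, mI, lI, lQ, u0⟩
  dsimp only at D big nR mR mI lI lQ u0 hq m mg ⊢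
  have nR' : Rn.length ≤ X.G.n := len_le_of_lt nR fun v k => ((mR v).1 k).1
  refine (sp_mgL w m mg (by omega) (fun v k => ((mR v).1 k).1) fun x k => ((mI x).1 k).1).bind ?_
  rintro L t1 ⟨l0, l0', l1, l2, l3, lL, u1⟩
  have Rm := h.Rm
  refine (sp_rd h i.il i.arcs.mem (rm.le (by omega))).bind ?_
  rintro ⟨s1, x⟩ t2 ⟨il, vx, u2, -⟩
  dsimp only at il vx u2 ⊢
  have val : ∀ j ∈ L, j ∈ N.E → x.get j = N.X j := fun j a k => by rw [vx, if_pos ⟨a, k⟩]
  have sk : ∀ j ∈ C, 5 * j + 2 ∈ N.E := fun j k => (i.arcs.sink (mg.cl j k).1).1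
  have st1 : ∀ j ∈ A, d.st.get j ≠ 2 := fun j k => by rw [(mg.inn j k).2.1]; omega
  have gk : ∀ j ∈ A, 5 * j + 3 ∈ N.E := fun j k => (i.arcs.ghost (mg.inn j k).1 (st1 j k)).1
  have e1 : (C.map fun j => x.get (5 * j + 2)) = C.map fun j => N.X (5 * j + 2) :=
    List.map_congr_left fun j k => val _ (l3 j k) (sk j k)
  have e2 : (A.map fun j => x.get (5 * j + 3)) = A.map fun j => N.X (5 * j + 3) :=
    List.map_congr_left fun j k => val _ (l2 j k).2 (gk j k)
  have b1 := sum_le_B h (fun j k => (i.lt_B h (sk j k)).2.le) nC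
  have b2 := sum_le_B h (fun j k => (i.lt_B h (gk j k)).2.le) nA
  have b3 : 0 ≤ (A.map fun j => N.X (5 * j + 3)).sum := List.sum_nonneg fun y k => by
    obtain ⟨j, k', rfl⟩ := List.mem_map.1 k; exact (i.lt_B h (gk j k')).1.le
  refine (sp_sumZ (fun j k => ?_) (by rw [e1]; omega)).bind fun x1 t3 ⟨e3, u3⟩ =>
    (sp_sumZ (fun j k => ?_) (by rw [e2]; omega)).bind fun x2 t4 ⟨e4, u4⟩ => ?_
  · rw [val _ (l3 j k) (sk j k)]; exact (i.lt_B h (sk j k)).1.le
  · rw [val _ (l2 j k).2 (gk j k)]; exact (i.lt_B h (gk j k)).1.le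
  rw [e1] at e3
  rw [e2] at e4
  have gh : ∀ a ∈ A, (X.C.Ph * X.C.Z : ℤ) * N.X (5 * a + 3) ≤ X.P.D := fun a k =>
    i.ghost_le h gd (mg.inn a k).1 (st1 a k)
  have hz : x1 - x2 = ∑ j ∈ C.toFinset, N.X (5 * j + 2) - ∑ j ∈ A.toFinset, N.X (5 * j + 3) := by
    rw [e3, e4, List.sum_toFinset _ mg.ndC, List.sum_toFinset _ mg.ndA]
  have lam := merge_lam h m mg D gd.2 gh
  rw [← hz] at lam
  have hB : 100 * (x1 - x2) ≤ X.C.M := by omega
  have bg : Big X.P (snkA X.C c (e.cw.get c + 1)) (x1 - x2) := h.big rfl lam (by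
    have := h.lam_le'; have := h.BD_le
    change _ ≤ (X.C.M : ℤ); omega)
  have AU : (100 : ℝ) ≤ X.k.AU := by exact_mod_cast h.AU
  have LL : (L.length : ℝ) ≤ 10 * (X.G.n + 1) := by exact_mod_cast (by omega : L.length ≤ 10 * (X.G.n + 1))
  have L0 : (0 : ℝ) ≤ L.length := Nat.cast_nonneg _
  refine sp_bind.2 (sp_int.2 ⟨by omega, (sp_app0 h il i.arcs (D.cmb m mg) ?_
    (D.off w m mg (fun j a k => k.elim (fun k => l0 j ((mI j).2 ⟨a, k⟩))
      fun k => l0' j a ((mR _).2 ⟨w.tl_lt j a, k⟩)) l1 l2 l3) fun j a k => ?_).mono ?_⟩)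
  · have a1 := phi_le_Pt (X := X) (s := s1)
    have a2 : (100 * (X.G.n + 1) : ℝ) ≤ X.Rm := by exact_mod_cast Rm
    have a3 := mul_le_mul_of_nonneg_right a2 (by positivity : (0 : ℝ) ≤ 2 * X.k.AU)
    have a4 := mul_le_mul_of_nonneg_left LL (by positivity : (0 : ℝ) ≤ 4 * X.k.AU + 3)
    have a5 : (0 : ℝ) ≤ t2 := Nat.cast_nonneg _
    have a6 : (0 : ℝ) ≤ X.G.n := Nat.cast_nonneg _
    have a7 := mul_le_mul_of_nonneg_right AU (by positivity : (0 : ℝ) ≤ X.G.n + 1)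
    unfold Room at rm
    dsimp only at rm
    nlinarith
  · by_cases n : j = 5 * c + 2
    · rw [n, Arr.get_set_self, arcOf2]; exact h.dom bg
    · obtain ⟨k1, -, -, k2⟩ := D.key (D₀ := X.P.D) (K := X.C) w m mg k n
      have hj := (i.arcs.mem j).2 k1
      have := (h.ip.view i.il.1 j hj).2.2.1
      rw [i.arcs.arc j hj] at this
      rw [Arr.get_set_ne _ n, val j a hj, k2]; exact this
  rintro ⟨s2, e'⟩ t5 ⟨rfl, N', il', a1, a2, -, u5, -⟩
  dsimp only at il' a1 a2 u5 D lQ bg ⊢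
  have k0 : 5 * c + 2 ∈ N'.E := (a1 _).2 (has2.2 (D.isC_c mg))
  have kx : N'.X (5 * c + 2) = x1 - x2 := by
    rw [(a2 _ k0).2, if_pos (l3 c D.hc), Arr.get_set_self]
  have ct := D.ctr w m mg i.arcs a1 (fun j k => (a2 j k).1) (fun j k n k' => by
    rw [(a2 j k).2]
    split_ifs with a
    · rw [Arr.get_set_ne _ n, val j a k']
    · rfl) (by rw [kx, e3, e4])
  refine ⟨N', ⟨il', ⟨a1, fun j k => (a2 j k).1, ct.circ i.arcs.circ⟩, D.cmb m mg,
    D.qok w mg i.q hq⟩, ?_⟩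
  have p1 := ct.pot_le (P := X.P) (B := X.Bd) fun j k => Inv.bar_nonneg h i.il.1 k
  rw [(a2 _ k0).1, arcOf2, kx] at p1
  have p2 := merge_bar h m mg D i.il.1 i.arcs gd.2 gh hz hB bg
  have p3 := merge_Psi h m mg D big nR (fun v k => (mR v).1 k) hq lQ
  have p4 := mul_le_mul_of_nonneg_left (show pot X.P X.Bd N' + X.Ψ e' +
    (A.length + Rn.length + 1) + 1000 * (A.length + 1) ≤ pot X.P X.Bd N + X.Ψ d by linarith)
    (Nat.cast_nonneg (α := ℝ) X.κ)
  have cd := mg.card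
  have p5 : ((t0 + t1 + t3 + t4 + 7 : ℕ) : ℝ) ≤ (60 * (A.length + Rn.length + 1) : ℕ) :=
    Nat.cast_le.2 (by omega)
  have p6 : (L.length : ℝ) ≤ (6 * (A.length + Rn.length + 1) : ℕ) := Nat.cast_le.2 (by omega)
  push_cast at p5 p6
  have p7 := mul_le_mul_of_nonneg_left p6 (by positivity : (0 : ℝ) ≤ 4 * X.k.AU + 7)
  have p8 := mul_le_mul_of_nonneg_right h.AU_le
    (by positivity : (0 : ℝ) ≤ A.length + Rn.length + 1)
  have p9 : (0 : ℝ) ≤ X.k.AU * (A.length + Rn.length + 1) := by positivity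
  simp only [Tot]
  push_cast
  nlinarith

end Cx

end Crest.Agent.N325.P2
end

-- ▼ part N325/Mg/Impl

/-!
# Row 325, P2 MERGE (helper4): the event is implementable
-/

set_option autoImplicit false

namespace Crest.Agent.N325.P2

open Crest.Agent.N325.Bf

variable {α T : Type} [Rp α] [Rp T]

@[fun_prop] theorem impl_idsL {j : α → ℕ} {l m : α → List ℕ} (hj : Pu true j) (hl : Pu true l)
    (hm : Pu true m) : Impl fun a => idsL (j a) (l a) (m a) := by
  unfold idsL; impl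

@[fun_prop] theorem impl_sumZ {f : α → ℕ → ℤ} {l : α → List ℕ}
    (hf : Pu false fun p : α × ℕ => f p.1 p.2) (hl : Pu true l) :
    Impl fun a => sumZ (f a) (l a) := by
  unfold sumZ; impl

@[fun_prop] theorem impl_mgD {G : α → Gf} {d : α → Dt} {A C q : α → List ℕ} {b : α → ℕ}
    (hG : Pu true G) (hd : Pu true d) (hA : Pu true A) (hC : Pu true C) (hb : Pu true b)
    (hq : Pu true q) : Impl fun a => mgD (G a) (d a) (A a) (C a) (b a) (q a) := by
  unfold mgD; impl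

@[fun_prop] theorem impl_mgL {G : α → Gf} {d : α → Dt} {A C Rn I : α → List ℕ} {b : α → ℕ}
    (hG : Pu true G) (hd : Pu true d) (hA : Pu true A) (hC : Pu true C) (hb : Pu true b)
    (hR : Pu true Rn) (hI : Pu true I) :
    Impl fun a => mgL (G a) (d a) (A a) (C a) (b a) (Rn a) (I a) := by
  unfold mgL; impl

theorem impl_merge : Impl fun p : Env T × S T × List ℕ × List ℕ × ℕ × List ℕ =>
    merge p.1 p.2.1 p.2.2.1 p.2.2.2.1 p.2.2.2.2.1 p.2.2.2.2.2 := by
  unfold merge; impl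

end Crest.Agent.N325.P2
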